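import Vale.Agent.P300LX.Defs
import Mathlib.Analysis.Complex.Polynomial.Basic

/-!
# P300LX: the topology of the resolved double cover
-/

open Set Filter Topology Function
open scoped ComplexConjugate
open Vale.Agent.P272.K (Cm)

noncomputable section

namespace Vale.Agent.P300LX

section alg

variable {k : ℕ} {v : Cm 2} {c : ℂ} {q q' : Cm 2 × ℂ} {l : Lf}

theorem nn_ne (h : v ≠ 0) : nn v ≠ 0 := by
  obtain ⟨a, ha⟩ := Function.ne_iff.1 h
  simp only [nn, Complex.mul_conj]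
  exact_mod_cast (Finset.sum_pos' (fun c _ => Complex.normSq_nonneg _)
    ⟨a, Finset.mem_univ _, Complex.normSq_pos.2 ha⟩).ne'

theorem nn_smul (c : ℂ) (v : Cm 2) : nn (c • v) = c * conj c * nn v := by
  simp only [nn, Finset.mul_sum, Pi.smul_apply, smul_eq_mul, map_mul]
  exact Finset.sum_congr rfl fun a _ => by ring

theorem sc_sc (a b : ℂ) (q : Cm 2 × ℂ) : sc k a (sc k b q) = sc k (a * b) q := by
  simp only [sc, smul_smul, mul_pow, mul_assoc]

theorem sc_one (q : Cm 2 × ℂ) : sc k 1 q = q := by simp [sc]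

theorem tau_sc (hc : c ≠ 0) (h : q.1 ≠ 0) : tau k (sc k c q) = tau k q := by
  funext l
  have h1 := nn_ne h
  have h2 : conj c ≠ 0 := by simpa using hc
  rw [tau, sc_sc, tau]
  congr 1
  simp only [sc, nn_smul, map_smul, smul_eq_mul, map_mul]
  field_simp

theorem l_tau : l (tau k q l).1 = conj (l q.1) / nn q.1 * l q.1 := by
  simp only [tau, sc, map_smul, smul_eq_mul]

theorem l_tau_ne (h : q.1 ≠ 0) : l (tau k q l).1 ≠ 0 ↔ l q.1 ≠ 0 := by
  simp [l_tau, nn_ne h]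

theorem sc_tau (h : q.1 ≠ 0) (hl : l q.1 ≠ 0) :
    sc k (l (tau k q l).1)⁻¹ (tau k q l) = sc k (l q.1)⁻¹ q := by
  have h1 := nn_ne h
  have h2 : conj (l q.1) ≠ 0 := by simpa using hl
  rw [l_tau, tau, sc_sc]
  congr 1
  field_simp

theorem ex_lf (h : v ≠ 0) : ∃ a : Fin 2, (ContinuousLinearMap.proj a : Lf) v ≠ 0 :=
  Function.ne_iff.1 h

theorem tau_inj (h : q.1 ≠ 0) (h' : q'.1 ≠ 0) (e : tau k q = tau k q') :
    ∃ c, c ≠ 0 ∧ q' = sc k c q := by
  obtain ⟨a, ha⟩ := ex_lf h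
  generalize (ContinuousLinearMap.proj a : Lf) = l at ha
  have hb : l q'.1 ≠ 0 := (l_tau_ne (k := k) h').1 (e ▸ (l_tau_ne h).2 ha)
  refine ⟨l q'.1 * (l q.1)⁻¹, mul_ne_zero hb (inv_ne_zero ha), ?_⟩
  rw [← sc_sc, ← sc_tau h ha, e, sc_tau h' hb, sc_sc, mul_inv_cancel₀ hb, sc_one]

theorem tau_cont (h : q.1 ≠ 0) : ContinuousAt (tau k) q :=
  continuousAt_pi.2 fun l => by
    have : ContinuousAt (fun q : Cm 2 × ℂ => conj (l q.1) / nn q.1) q :=
      ContinuousAt.div (by fun_prop) (by unfold nn; fun_prop) (nn_ne h)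
    exact (this.smul continuousAt_fst).prodMk ((this.pow k).mul continuousAt_snd)

theorem bd_scl (hc : c ≠ 0) (p : Cm 2) (q : E3) : bd p (scl k c q).1 = bd p q.1 := by
  simp only [bd, scl, smul_smul, div_mul_cancel₀ _ hc]

theorem scl_scl (a b : ℂ) (q : E3) : scl k a (scl k b q) = scl k (a * b) q := by
  simp only [scl, smul_smul, mul_pow, mul_assoc, div_div, mul_comm b a]

theorem scl_one (q : E3) : scl k 1 q = q := by simp [scl]

theorem bd_an (p : Cm 2) (u : ℂ × Cm 2) : AnalyticAt ℂ (bd p) u :=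
  analyticAt_const.add (analyticAt_fst.smul analyticAt_snd)

@[fun_prop] theorem bd_cont (p : Cm 2) : Continuous (bd p) := by
  unfold bd
  fun_prop

theorem bd_zero (p v : Cm 2) : bd p (0, v) = p := by simp [bd]

theorem bd_eq_iff {p : Cm 2} {u : ℂ × Cm 2} (h : u.2 ≠ 0) : bd p u = p ↔ u.1 = 0 := by
  simp [bd, h]

end alg

/-- two functions which agree off zero agree at zero -/
theorem eq_at_zero {F : Type} [TopologicalSpace F] [T2Space F] {f g : ℂ → F}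
    (hf : ContinuousAt f 0) (hg : ContinuousAt g 0) (h : ∀ᶠ s in 𝓝 0, s ≠ 0 → f s = g s) :
    f 0 = g 0 :=
  tendsto_nhds_unique_of_eventuallyEq (l := 𝓝[≠] 0) (hf.mono_left nhdsWithin_le_nhds)
    (hg.mono_left nhdsWithin_le_nhds) (eventually_nhdsWithin_iff.2 h)

/-- square roots which converge -/
theorem exists_root {A : Type*} {l : Filter A} {f : A → ℂ} {c : ℂ} (h : Tendsto f l (𝓝 (c ^ 2))) :
    ∃ r : A → ℂ, (∀ t, r t ^ 2 = f t) ∧ Tendsto r l (𝓝 c) := by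
  have key : ∀ t, ∃ r : ℂ, r ^ 2 = f t ∧ ‖r - c‖ ≤ ‖r + c‖ := fun t => by
    obtain ⟨r, hr⟩ := IsAlgClosed.exists_pow_nat_eq (f t) two_pos
    rcases le_total ‖r - c‖ ‖r + c‖ with k | k
    · exact ⟨r, hr, k⟩
    · refine ⟨-r, by rw [neg_sq, hr], ?_⟩
      rwa [← norm_neg, ← norm_neg (-r + c), neg_sub, neg_add, neg_neg, sub_neg_eq_add, add_comm,
        ← sub_eq_add_neg]
  choose r h1 h2 using key
  refine ⟨r, h1, tendsto_iff_norm_sub_tendsto_zero.2 (squeeze_zero (fun _ => norm_nonneg _)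
    (g := fun t => √‖f t - c ^ 2‖) (fun t => Real.le_sqrt_of_sq_le ?_) ?_)⟩
  · rw [← h1, sq_sub_sq, norm_mul, sq]
    exact mul_le_mul_of_nonneg_right (h2 t) (norm_nonneg _)
  · simpa using (tendsto_iff_norm_sub_tendsto_zero.1 h).sqrt

namespace Dat

variable {D : Dat} {p : D.S} {y y' : D.Xh} {q q' : E3} {c : ℂ} {l : Lf}

theorem hb_scl {u : ℂ × Cm 2} (hc : c ≠ 0) (h : u.2 ≠ 0) (h' : bd p u ∈ D.Om) :
    D.hb p (u.1 / c, c • u.2) = c ^ (2 * D.k p) * D.hb p u := by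
  have key : ∀ t, t ≠ 0 → bd p (t, u.2) ∈ D.Om →
      D.hb p (t / c, c • u.2) = c ^ (2 * D.k p) * D.hb p (t, u.2) := fun t ht k => by
    have e : bd p (t / c, c • u.2) = bd p (t, u.2) := bd_scl (k := 0) hc p ((t, u.2), 0)
    have h1 := D.hb_eq p p.2 (t / c, c • u.2) (smul_ne_zero hc h) (e ▸ k)
    rw [e, D.hb_eq p p.2 (t, u.2) h k, div_pow] at h1
    refine mul_left_cancel₀ (pow_ne_zero (2 * D.k p) ht) ?_
    rw [mul_left_comm, h1]
    field_simp
  by_cases ht : u.1 = 0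
  · obtain ⟨t, v⟩ := u
    obtain rfl : t = 0 := ht
    refine eq_at_zero (f := fun t => D.hb p (t / c, c • v))
      (g := fun t => c ^ (2 * D.k p) * D.hb p (t, v)) ?_ ?_ ?_
    · refine ContinuousAt.comp (g := D.hb p) (D.hb_an p p.2 _ (smul_ne_zero hc h) ?_).continuousAt
        (by fun_prop)
      rw [zero_div, bd_zero]
      exact D.sub p.2
    · exact continuousAt_const.mul (ContinuousAt.comp (g := D.hb p) (f := fun t => (t, v))
        (D.hb_an p p.2 _ h h').continuousAt (by fun_prop))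
    · have : ContinuousAt (fun t : ℂ => bd p (t, v)) 0 := by fun_prop
      filter_upwards [this.eventually (D.op.mem_nhds h')] with t k ht using key t ht k
  · exact key _ ht h'

theorem Cx.scl (h : D.Cx p q) (hc : c ≠ 0) : D.Cx p (scl (D.k p) c q) :=
  ⟨smul_ne_zero hc h.1, (bd_scl hc _ q).symm ▸ h.2.1, by
    rw [show D.hb p (P300LX.scl (D.k p) c q).1 = _ from hb_scl hc h.1 h.2.1, ← h.2.2]
    simp only [P300LX.scl]
    ring⟩

theorem scl_mem {q : E3} (h : q ∈ D.Dom p) (hc : c ≠ 0) : scl (D.k p) c q ∈ D.Dom p :=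
  ⟨h.1.scl hc, (bd_scl hc _ q).symm ▸ h.2⟩

theorem RepA.scl {y : D.Amb} (h : D.RepA p y q) (hc : c ≠ 0) : D.RepA p y (scl (D.k p) c q) where
  cx := h.cx.scl hc
  x := h.x.trans (bd_scl hc _ q).symm
  w := by
    rw [h.w]
    simp only [P300LX.scl, div_pow]
    field_simp
  t := h.t.trans (tau_sc (q := (q.1.2, q.2)) hc h.cx.1).symm

theorem RepA.uniq {y : D.Amb} (h : D.RepA p y q) (h' : D.RepA p y q') :
    ∃ c, c ≠ 0 ∧ q' = P300LX.scl (D.k p) c q := by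
  obtain ⟨c, hc, e⟩ := tau_inj (q := (q.1.2, q.2)) (q' := (q'.1.2, q'.2)) h.cx.1 h'.cx.1
    (h.t.symm.trans h'.t)
  have e1 : q'.1.2 = c • q.1.2 := congrArg Prod.fst e
  have e3 := congrArg Prod.snd e
  refine ⟨c, hc, Prod.ext (Prod.ext ?_ e1) e3⟩
  have e2 := h.x.symm.trans h'.x
  rw [bd, bd, e1, smul_smul, add_right_inj] at e2
  exact (eq_div_iff hc).2 (smul_left_injective ℂ h.cx.1 e2).symm

theorem π_mem (y : D.Xh) : π y ∈ D.Om := y.2.1

theorem w_sq (y : D.Xh) : w y ^ 2 = D.h (π y) := y.2.2.1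

theorem ex_rep (p : D.S) (y : D.Xh) : ∃ q, Rep p y q := y.2.2.2 p

@[fun_prop] theorem cont_π : Continuous (π : D.Xh → Cm 2) := continuous_subtype_val.fst

@[fun_prop] theorem cont_w : Continuous (w : D.Xh → ℂ) := continuous_subtype_val.snd.fst

theorem cont_T (p : D.S) (l : Lf) : Continuous fun y : D.Xh => y.1.2.2 p l :=
  (continuous_apply l).comp ((continuous_apply p).comp continuous_subtype_val.snd.snd)

theorem Rep.π (h : Rep p y q) : π y = bd p q.1 := h.x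

theorem Rep.w' (h : Rep p y q) : Dat.w y = q.1.1 ^ D.k p * q.2 := h.w

theorem Rep.π_iff (h : Rep p y q) : Dat.π y = p ↔ q.1.1 = 0 := h.π ▸ bd_eq_iff h.cx.1

theorem rep_ne (h : π y ≠ p) : Rep p y ((1, π y - p), w y) := by
  obtain ⟨q, hq⟩ := ex_rep p y
  have ht : q.1.1 ≠ 0 := mt hq.π_iff.2 h
  have := hq.scl ht
  rwa [scl, div_self ht, ← hq.w', show q.1.1 • q.1.2 = π y - p by rw [hq.π, bd, add_sub_cancel_left]]
    at this

theorem ext (h1 : π y = π y') (h2 : w y = w y')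
    (h3 : ∀ p : D.S, π y = p → ∃ q, Rep p y q ∧ Rep p y' q) : y = y' := by
  refine Subtype.ext (Prod.ext h1 (Prod.ext h2 (funext fun p => ?_)))
  by_cases e : π y = p
  · obtain ⟨q, k1, k2⟩ := h3 p e
    exact k1.t.trans k2.t.symm
  · rw [(rep_ne e).t, (rep_ne (h1 ▸ e)).t, h1, h2]

/-- off `S` a point is determined by `(π, w)` -/
theorem ext0 (h0 : π y ∉ D.S) (h1 : π y = π y') (h2 : w y = w y') : y = y' :=
  ext h1 h2 fun p e => absurd (e ▸ p.2) h0

theorem Rep.eq (h : Rep p y q) (h' : Rep p y' q) (h0 : Dat.π y ∈ D.S → Dat.π y = p) : y = y' :=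
  ext (h.π.trans h'.π.symm) (h.w'.trans h'.w'.symm) fun p' e => by
    obtain rfl : p' = p := Subtype.ext (e.symm.trans (h0 (e ▸ p'.2)))
    exact ⟨q, h, h'⟩

theorem Rep.dom (h : Rep p y q) (h0 : Dat.π y ∈ D.S → Dat.π y = p) : q ∈ D.Dom p :=
  ⟨h.cx, h.π ▸ h0⟩

theorem w_ex (h : π y ∈ D.S) : w y = 0 := by
  obtain ⟨q, hq⟩ := ex_rep ⟨_, h⟩ y
  rw [hq.w', hq.π_iff.1 rfl, zero_pow (D.kpos _ h).ne', zero_mul]

/-! ### off `S` -/

@[simp] theorem π_pt0 (z : D.Dom0) : π (pt0 z) = z.1.1 := rfl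

@[simp] theorem w_pt0 (z : D.Dom0) : w (pt0 z) = z.1.2 := rfl

theorem mem_dom0 (h : π y ∉ D.S) : (π y, w y) ∈ D.Dom0 := ⟨π_mem y, h, w_sq y⟩

theorem pt0_eq (h : π y ∉ D.S) : pt0 ⟨_, mem_dom0 h⟩ = y := ext0 h rfl rfl

/-- continuity off `S` -/
theorem tendsto0 {T : Type*} {f : Filter T} {F : T → D.Xh} (h : π y ∉ D.S)
    (h1 : Tendsto (fun t => π (F t)) f (𝓝 (π y))) (h2 : Tendsto (fun t => w (F t)) f (𝓝 (w y))) :
    Tendsto F f (𝓝 y) := by
  refine tendsto_subtype_rng.2 (h1.prodMk_nhds (h2.prodMk_nhds (tendsto_pi_nhds.2 fun p => ?_)))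
  have e : π y ≠ p := fun e => h (e ▸ p.2)
  rw [(rep_ne e).t]
  refine ((tau_cont (q := (π y - p, w y)) (sub_ne_zero.2 e)).tendsto.comp
    ((h1.sub_const _).prodMk_nhds h2)).congr' ?_
  filter_upwards [h1.eventually_ne e] with t ht using (rep_ne ht).t.symm

theorem contAt0 {T : Type*} [TopologicalSpace T] {F : T → D.Xh} {t : T} (h : π (F t) ∉ D.S)
    (h1 : ContinuousAt (fun t => π (F t)) t) (h2 : ContinuousAt (fun t => w (F t)) t) :
    ContinuousAt F t := tendsto0 h h1 h2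

theorem cont_pt0 : Continuous (pt0 : D.Dom0 → D.Xh) :=
  continuous_iff_continuousAt.2 fun z => contAt0 z.2.2.1
    continuous_subtype_val.fst.continuousAt continuous_subtype_val.snd.continuousAt

theorem isOpen_near (D : Dat) (p : Cm 2) : IsOpen {x | x ∈ D.Om ∧ (x ∈ D.S → x = p)} :=
  isOpen_iff_mem_nhds.2 fun x hx => by
    filter_upwards [D.op.mem_nhds hx.1, D.disc x hx.1] with z h1 h2
    exact ⟨h1, fun k => (h2 k).trans (hx.2 (h2 k ▸ k))⟩

theorem isOpen_off (D : Dat) : IsOpen {x | x ∈ D.Om ∧ x ∉ D.S} :=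
  isOpen_iff_mem_nhds.2 fun x hx => by
    filter_upwards [D.op.mem_nhds hx.1, D.disc x hx.1] with z h1 h2
    exact ⟨h1, fun k => hx.2 (h2 k ▸ k)⟩

theorem isOpen_offX : IsOpen {y : D.Xh | π y ∉ D.S} := by
  simpa [π_mem] using D.isOpen_off.preimage (cont_π (D := D))

theorem isOpen_nearX (p : Cm 2) : IsOpen {y : D.Xh | π y ∈ D.S → π y = p} := by
  simpa [π_mem] using (D.isOpen_near p).preimage (cont_π (D := D))

theorem range_pt0 : range (pt0 : D.Dom0 → D.Xh) = {y | π y ∉ D.S} :=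
  Subset.antisymm (range_subset_iff.2 fun z => z.2.2.1) fun _ h => ⟨_, pt0_eq h⟩

theorem isOpenEmbedding_pt0 : IsOpenEmbedding (pt0 : D.Dom0 → D.Xh) :=
  ⟨IsEmbedding.of_comp cont_pt0 (cont_π.prodMk cont_w) IsEmbedding.subtypeVal,
    range_pt0 (D := D) ▸ isOpen_offX⟩

/-! ### near `S` -/

theorem rep_pt (q : D.Dom p) : Rep p (pt p q) q := ⟨q.2.1, rfl, rfl, if_pos rfl⟩

@[simp] theorem π_pt (q : D.Dom p) : π (pt p q) = bd p q.1.1 := rfl

@[simp] theorem w_pt (q : D.Dom p) : w (pt p q) = q.1.1.1 ^ D.k p * q.1.2 := rfl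

theorem Rep.pt_eq (h : Rep p y q) (hq : q ∈ D.Dom p) : pt p ⟨q, hq⟩ = y :=
  (rep_pt ⟨q, hq⟩).eq h hq.2

theorem pt_surj (h : π y ∈ D.S → π y = p) : ∃ q, pt p q = y :=
  let ⟨_, hq⟩ := ex_rep p y
  ⟨_, hq.pt_eq (hq.dom h)⟩

theorem range_pt : range (pt p) = {y | π y ∈ D.S → π y = p} :=
  Subset.antisymm (range_subset_iff.2 fun z => z.2.2) fun _ h => pt_surj h

theorem pt_scl (q : D.Dom p) (hc : c ≠ 0) : pt p ⟨_, scl_mem q.2 hc⟩ = pt p q :=
  Rep.pt_eq ((rep_pt q).scl hc) _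

theorem pt_eq_iff {q q' : D.Dom p} :
    pt p q = pt p q' ↔ ∃ c, c ≠ 0 ∧ q'.1 = scl (D.k p) c q := by
  refine ⟨fun e => (rep_pt q).uniq (e ▸ rep_pt q'), fun ⟨c, hc, e⟩ => ?_⟩
  rw [← pt_scl q hc]
  exact congrArg _ (Subtype.ext e.symm)

/-- continuity near `S` -/
theorem tendsto_rep {T : Type*} {f : Filter T} {F : T → D.Xh} {g : T → E3} (h : Rep p y q)
    (h0 : π y ∈ D.S → π y = p) (h1 : Tendsto g f (𝓝 q)) (h2 : ∀ᶠ t in f, Rep p (F t) (g t)) :
    Tendsto F f (𝓝 y) := by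
  have k1 : Tendsto (fun t => π (F t)) f (𝓝 (π y)) := by
    rw [h.π]
    exact (((bd_cont p).tendsto _).comp h1.fst_nhds).congr' (h2.mono fun t k => k.π.symm)
  have k2 : Tendsto (fun t => w (F t)) f (𝓝 (w y)) := by
    rw [h.w']
    exact ((h1.fst_nhds.fst_nhds.pow _).mul h1.snd_nhds).congr' (h2.mono fun t k => k.w'.symm)
  refine tendsto_subtype_rng.2 (k1.prodMk_nhds (k2.prodMk_nhds (tendsto_pi_nhds.2 fun p' => ?_)))
  by_cases e : π y = p'
  · obtain rfl : p' = p := Subtype.ext (e.symm.trans (h0 (e ▸ p'.2)))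
    rw [h.t]
    exact ((tau_cont (q := (q.1.2, q.2)) h.cx.1).tendsto.comp
      (h1.fst_nhds.snd_nhds.prodMk_nhds h1.snd_nhds)).congr' (h2.mono fun t k => k.t.symm)
  · rw [(rep_ne e).t]
    refine ((tau_cont (q := (π y - p', w y)) (sub_ne_zero.2 e)).tendsto.comp
      ((k1.sub_const _).prodMk_nhds k2)).congr' ?_
    filter_upwards [k1.eventually_ne e] with t ht using (rep_ne ht).t.symm

theorem cont_pt : Continuous (pt p) :=
  continuous_iff_continuousAt.2 fun q => tendsto_rep (rep_pt q) q.2.2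
    continuous_subtype_val.continuousAt (.of_forall rep_pt)

theorem Rep.mem_O (h : Rep p y q) :
    y ∈ O p l ↔ (Dat.π y ∈ D.S → Dat.π y = p) ∧ l q.1.2 ≠ 0 := by
  rw [O, mem_ofPred_eq, h.t, l_tau_ne h.cx.1]

theorem Rep.crd_eq (h : Rep p y q) (hl : l q.1.2 ≠ 0) :
    crd p l y = scl (D.k p) (l q.1.2)⁻¹ q := by
  have e := sc_tau (k := D.k p) (q := (q.1.2, q.2)) h.cx.1 hl
  rw [← h.t] at e
  have e1 := congrArg Prod.fst e
  have e2 := congrArg Prod.snd e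
  refine Prod.ext (Prod.ext ?_ e1) e2
  simp only [crd, scl, h.π, bd, add_sub_cancel_left, map_smul, smul_eq_mul, div_inv_eq_mul]

theorem rep_crd (h : y ∈ O p l) : Rep p y (crd p l y) :=
  let ⟨_, hq⟩ := ex_rep p y
  have k := (hq.mem_O.1 h).2
  hq.crd_eq k ▸ hq.scl (inv_ne_zero k)

theorem l_crd (h : y ∈ O p l) : l (crd p l y).1.2 = 1 := by
  rw [crd, map_smul, smul_eq_mul, inv_mul_cancel₀ h.2]

theorem crd_mem (h : y ∈ O p l) : crd p l y ∈ D.Dom p := (rep_crd h).dom h.1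

theorem pt_crd (h : y ∈ O p l) : pt p ⟨_, crd_mem h⟩ = y := (rep_crd h).pt_eq _

theorem pt_mem_O {q : D.Dom p} : pt p q ∈ O p l ↔ l q.1.1.2 ≠ 0 :=
  (rep_pt q).mem_O.trans (and_iff_right q.2.2)

theorem crd_pt {q : D.Dom p} (h : l q.1.1.2 = 1) : crd p l (pt p q) = q := by
  rw [(rep_pt q).crd_eq (h ▸ one_ne_zero), h, inv_one, scl_one]

theorem isOpen_O (p : D.S) (l : Lf) : IsOpen (O p l) :=
  (isOpen_nearX p).inter (isOpen_ne.preimage (l.continuous.comp (cont_T p l).fst))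

theorem contAt_crd (h : y ∈ O p l) : ContinuousAt (crd p l) y := by
  have k : ContinuousAt (fun y : D.Xh => (l (y.1.2.2 p l).1)⁻¹) y :=
    (l.continuous.comp (cont_T p l).fst).continuousAt.inv₀ h.2
  exact ((l.continuous.comp (cont_π.sub continuous_const)).continuousAt.prodMk
    (k.smul (cont_T p l).fst.continuousAt)).prodMk ((k.pow _).mul (cont_T p l).snd.continuousAt)

theorem ex_O (h : π y ∈ D.S → π y = p) : ∃ a : Fin 2, y ∈ O p (ContinuousLinearMap.proj a) :=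
  let ⟨_, hq⟩ := ex_rep p y
  (ex_lf hq.cx.1).imp fun _ k => hq.mem_O.2 ⟨h, k⟩

theorem cover (y : D.Xh) : π y ∉ D.S ∨ ∃ (p : D.S) (l : Lf), π y = p ∧ y ∈ O p l := by
  refine or_iff_not_imp_left.2 fun h => ?_
  obtain ⟨a, ha⟩ := ex_O (p := ⟨π y, not_not.1 h⟩) (y := y) fun _ => rfl
  exact ⟨_, _, rfl, ha⟩

/-- a function of the homogeneous coordinates is continuous -/
theorem contAt_of_rep {Z : Type*} [TopologicalSpace Z] {f : D.Xh → Z} {g : E3 → Z}
    (h : y ∈ O p l) (hg : ContinuousWithinAt g (D.Dom p) (crd p l y))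
    (e : ∀ᶠ y' in 𝓝 y, y' ∈ O p l → f y' = g (crd p l y')) : ContinuousAt f y := by
  have k := (isOpen_O p l).eventually_mem h
  refine ContinuousAt.congr (f := fun y' => g (crd p l y')) (hg.tendsto.comp
    (tendsto_nhdsWithin_iff.2 ⟨contAt_crd h, k.mono fun _ => crd_mem⟩)) ?_
  filter_upwards [k, e] with y' k1 k2 using (k2 k1).symm

/-- the complement of the exceptional curves is dense -/
theorem dense_off : Dense {y : D.Xh | π y ∉ D.S} := fun y => by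
  rcases cover y with h | ⟨p, l, h, hl⟩
  · exact subset_closure h
  have hq := rep_crd hl
  have h0 := hq.π_iff.1 h
  generalize crd p l y = q at hq h0
  obtain ⟨⟨t, v⟩, c⟩ := q
  obtain rfl : t = 0 := h0
  have k0 : Tendsto (fun t : ℂ => (t, v)) (𝓝[≠] 0) (𝓝 (0, v)) :=
    (Continuous.tendsto (by fun_prop) 0).mono_left nhdsWithin_le_nhds
  obtain ⟨r, k1, k2⟩ := exists_root (f := fun t => D.hb p (t, v)) (c := c)
    (hq.cx.2.2 ▸ (D.hb_an p p.2 _ hq.cx.1 hq.cx.2.1).continuousAt.tendsto.comp k0)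
  have k3 : ∀ᶠ t in 𝓝[≠] (0 : ℂ), ((t, v), r t) ∈ D.Dom p := by
    filter_upwards [(((bd_cont p).tendsto _).comp k0).eventually ((D.isOpen_near p).mem_nhds
      ⟨hq.cx.2.1, fun _ => bd_zero _ _⟩)] with t ht using ⟨⟨hq.cx.1, ht.1, k1 t⟩, ht.2⟩
  classical
  refine mem_closure_of_tendsto (tendsto_rep (F := fun t =>
    if k : ((t, v), r t) ∈ D.Dom p then pt p ⟨_, k⟩ else y) hq hl.1 (k0.prodMk_nhds k2) ?_) ?_
  · filter_upwards [k3] with t ht
    rw [dif_pos ht]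
    exact rep_pt ⟨_, ht⟩
  · filter_upwards [k3, self_mem_nhdsWithin] with t ht h1
    rw [dif_pos ht]
    exact fun k => h1 ((bd_eq_iff ht.1.1).1 (ht.2 k))

/-! ### properness -/

theorem isCompact_root {A : Type} [TopologicalSpace A] [T2Space A] {C : Set A} (hC : IsCompact C)
    {H : A → ℂ} (hH : ContinuousOn H C) : IsCompact {z : A × ℂ | z.1 ∈ C ∧ z.2 ^ 2 = H z.1} := by
  obtain ⟨R, hR⟩ := hC.exists_bound_of_continuousOn hH
  have h1 : IsClosed {z : A × ℂ | z.1 ∈ C ∧ z.2 ^ 2 = H z.1} :=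
    (hC.isClosed.preimage continuous_fst).isClosed_eq (by fun_prop)
      (hH.comp continuous_fst.continuousOn fun _ h => h)
  refine (hC.prod (isCompact_closedBall (0 : ℂ) (R + 1))).of_isClosed_subset h1 fun z hz =>
    ⟨hz.1, mem_closedBall_zero_iff.2 ?_⟩
  have h2 := hR _ hz.1
  rw [← hz.2, norm_pow] at h2
  nlinarith [norm_nonneg z.2]

theorem isCompact_pre {K : Set (Cm 2)} (hK : IsCompact K) (h : K ⊆ D.Om) :
    IsCompact (π ⁻¹' K : Set D.Xh) := by
  have key : ∀ x ∈ K, ∃ N ∈ 𝓝 x, IsCompact (π ⁻¹' N : Set D.Xh) := fun x hx => by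
    by_cases hs : x ∈ D.S
    · obtain ⟨r, hr, k⟩ := Metric.nhds_basis_closedBall.mem_iff.1
        ((D.isOpen_near x).mem_nhds ⟨h hx, fun _ => rfl⟩)
      have k1 : ∀ u ∈ Metric.closedBall (0 : ℂ) r ×ˢ Metric.sphere (0 : Cm 2) 1,
          u.2 ≠ 0 ∧ bd x u ∈ Metric.closedBall x r := fun u hu => by
        have a1 := mem_sphere_zero_iff_norm.1 hu.2
        refine ⟨fun e => by simp [e] at a1, ?_⟩
        rw [mem_closedBall_iff_norm, bd, add_sub_cancel_left, norm_smul, a1, mul_one]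
        exact mem_closedBall_zero_iff.1 hu.1
      have k2 := isCompact_root ((isCompact_closedBall (0 : ℂ) r).prod (isCompact_sphere 0 1))
        (H := D.hb x) fun u hu =>
          (D.hb_an x hs u (k1 u hu).1 (k (k1 u hu).2).1).continuousAt.continuousWithinAt
      have k3 := ((IsInducing.subtypeVal (t := D.Dom x)).isCompact_preimage_iff
        (fun q hq => ⟨⟨q, ⟨(k1 _ hq.1).1, (k (k1 _ hq.1).2).1, hq.2⟩, (k (k1 _ hq.1).2).2⟩, rfl⟩)).2 k2
      refine ⟨_, Metric.closedBall_mem_nhds x hr, (k3.image (cont_pt (p := ⟨x, hs⟩))).of_isClosed_subset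
        (Metric.isClosed_closedBall.preimage cont_π) fun y hy => ?_⟩
      obtain ⟨q, hq⟩ := ex_rep ⟨x, hs⟩ y
      have a1 : (‖q.1.2‖ : ℂ) ≠ 0 := by simpa using hq.cx.1
      have a2 : Rep ⟨x, hs⟩ y _ := hq.scl (inv_ne_zero a1)
      have a3 : ‖(scl (D.k x) (‖q.1.2‖ : ℂ)⁻¹ q).1.2‖ = 1 := by
        simp [scl, norm_smul, inv_mul_cancel₀ (norm_ne_zero_iff.2 hq.cx.1)]
      generalize scl (D.k x) (‖q.1.2‖ : ℂ)⁻¹ q = q' at a2 a3
      refine ⟨⟨q', a2.dom (k hy).2⟩, ⟨⟨?_, mem_sphere_zero_iff_norm.2 a3⟩, a2.cx.2.2⟩, a2.pt_eq _⟩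
      have a4 : π y ∈ Metric.closedBall x r := hy
      rwa [a2.π, mem_closedBall_iff_norm, bd, add_sub_cancel_left, norm_smul, a3, mul_one,
        ← mem_closedBall_zero_iff] at a4
    · obtain ⟨r, hr, k⟩ := Metric.nhds_basis_closedBall.mem_iff.1
        (D.isOpen_off.mem_nhds ⟨h hx, hs⟩)
      have k2 := isCompact_root (isCompact_closedBall x r) (H := D.h) fun u hu =>
        (D.an u (k hu).1).continuousAt.continuousWithinAt
      have k3 := ((IsInducing.subtypeVal (t := D.Dom0)).isCompact_preimage_iff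
        (fun q hq => ⟨⟨q, (k hq.1).1, (k hq.1).2, hq.2⟩, rfl⟩)).2 k2
      exact ⟨_, Metric.closedBall_mem_nhds x hr, (k3.image cont_pt0).of_isClosed_subset
        (Metric.isClosed_closedBall.preimage cont_π) fun y hy =>
        ⟨⟨_, mem_dom0 (k hy).2⟩, ⟨hy, w_sq y⟩, pt0_eq (k hy).2⟩⟩
  choose! N h1 h2 using key
  obtain ⟨t, k1, k2⟩ := hK.elim_nhds_subcover N h1
  refine (t.isCompact_biUnion fun x hx => h2 x (k1 x hx)).of_isClosed_subset
    (hK.isClosed.preimage cont_π) fun y hy => ?_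
  simpa using k2 hy

end Dat

end Vale.Agent.P300LX
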