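import Vale.Agent.P300LX.Div
import Vale.Agent.P300L.Su

/-!
# P300LX: the blocks DIVE, DIV1, TRI
-/

open Set Filter Topology Function
open Vale.Agent.P277Z.Slc (LEq IsDiv stUnit)
open Vale.Agent.P277Z.Slc.Dv
open Vale.Agent.P300LG Vale.Agent.P300L

noncomputable section

namespace Vale.Agent.P300LX

open Dat

theorem dive : DIVE := fun _ _ _ B p => B.dive p.2

theorem inv_of {D : Dat} {A : Arr D} {G : Type} [Group G] {B : Act D G} (h : Eqv A B) (g : G) :
    ∀ y ∈ ⋃ α, A.D1 α, B.sm g y ∈ ⋃ α, A.D1 α := fun y k =>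
  let ⟨α, e⟩ := mem_iUnion.1 k
  mem_iUnion.2 (h g α y e)

theorem div1 : DIV1 := fun _ _ _ _ B h => B.ex_leq (inv_of h) leq_D1

theorem tri : TRI := by
  intro D A G _ B h Od sg hd r _ f u t
  have hD := dense_compl (leq_D1 (A := A))
  have hW : ∀ y : D.Xh, nq (π y) < r → ∀ᶠ y' : D.Xh in 𝓝 y, π y' ∈ Bl r := fun y k =>
    ((nq_cont.comp cont_π).continuousAt.eventually_lt continuousAt_const k).mono fun _ => le_of_lt
  have hq := B.q_cont
  have := B.X.sc
  have key : ∀ i y, nq (π y) < r → B.q y ∈ Od.U i → ∃ V : D.Xh → ℂ, V y ≠ 0 ∧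
      ∀ᶠ y' in 𝓝 y, ContinuousAt V y' ∧ sg i (B.q y') = f y' * V y' := fun i y h1 h2 => by
    have k := hd.leq i _ h2
    by_cases e : y ∈ ⋃ α, A.D1 α
    · obtain ⟨α, e⟩ := mem_iUnion.1 e
      obtain ⟨ζ, k1, k2⟩ := B.leq_q (inv_of h) (leq_d1 e)
      obtain ⟨U, u1, u2, u3⟩ := stUnit 2 _ _ _ _ _ k1 k
      have a := (hW y h1).and (near_O e)
      refine ⟨fun y => U (B.q y) / u α y,
        div_ne_zero u2 (t.une α y a.self_of_nhds.1 a.self_of_nhds.2), ?_⟩
      filter_upwards [a.eventually_nhds, hq.continuousAt.eventually u1.near,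
        hq.continuousAt.eventually u3, k2] with y' b1 b2 b3 b4
      have b5 := t.une α y' b1.self_of_nhds.1 b1.self_of_nhds.2
      refine ⟨(b2.continuousAt.comp hq.continuousAt).div ((t.ucont α).continuousAt b1) b5, ?_⟩
      rw [b3, b4, t.eq α y' b1.self_of_nhds.1 b1.self_of_nhds.2]
      field_simp
    · refine ⟨fun y => sg i (B.q y) / f y, div_ne_zero (mt (fun a => (B.mem_q (inv_of h)).1
        (k.mem.1 a)) e) (t.ne y h1.le fun β a => e (mem_iUnion.2 ⟨β, a⟩)), ?_⟩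
      filter_upwards [(hW y h1).eventually_nhds, hq.continuousAt.eventually k.hol.near,
        near_off e] with y' b1 b2 b3
      have b5 := t.ne y' b1.self_of_nhds fun β a => b3 (mem_iUnion.2 ⟨β, a⟩)
      exact ⟨(b2.continuousAt.comp hq.continuousAt).div (t.cont.continuousAt b1) b5,
        (mul_div_cancel₀ _ b5).symm⟩
  have ne : ∀ y, π y ∈ Bl r → y ∈ (⋃ α, A.D1 α)ᶜ → f y ≠ 0 := fun y a b =>
    t.ne y a fun β c => b (mem_iUnion.2 ⟨β, c⟩)
  have key2 : ∀ i y, nq (π y) < r → B.q y ∈ Od.U i →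
      ContinuousAt (ext (⋃ α, A.D1 α)ᶜ fun y => sg i (B.q y) / f y) y ∧
      ext (⋃ α, A.D1 α)ᶜ (fun y => sg i (B.q y) / f y) y ≠ 0 ∧ ∀ᶠ y' in 𝓝 y,
        sg i (B.q y') = f y' * ext (⋃ α, A.D1 α)ᶜ (fun y => sg i (B.q y) / f y) y' :=
    fun i y h1 h2 => by
    obtain ⟨V, k1, k2⟩ := key i y h1 h2
    have k3 : ∀ᶠ y' in 𝓝 y, V y' = ext (⋃ α, A.D1 α)ᶜ (fun y => sg i (B.q y) / f y) y' := by
      filter_upwards [(k2.and (hW y h1)).eventually_nhds] with y' a
      refine (ext_at hD a.self_of_nhds.1.1 (a.mono fun z b c => ?_)).symm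
      rw [b.1.2, mul_div_cancel_left₀ _ (ne z b.2 c)]
    refine ⟨k2.self_of_nhds.1.congr k3, k3.self_of_nhds ▸ k1, ?_⟩
    filter_upwards [k2, k3] with y' a b
    rw [← b, a.2]
  refine ⟨fun i => ext (⋃ α, A.D1 α)ᶜ fun y => sg i (B.q y) / f y,
    fun i y k => (key2 i y k.1 k.2).1.continuousWithinAt,
    fun i y a b => ⟨(key2 i y a b).2.1, (key2 i y a b).2.2.self_of_nhds⟩, fun i j y a b c => ?_⟩
  have g1 : P277Z.Hol 2 (Od.g i j) (B.q y) := fun e he => (hd.lb.holo i j e _ he b c).analyticAt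
  refine eq_of_dense hD (key2 i y a b).1
    ((g1.continuousAt.comp hq.continuousAt).mul (key2 j y a c).1) ?_
  filter_upwards [(key2 i y a b).2.2, (key2 j y a c).2.2, hW y a,
    hq.continuousAt.eventually ((hd.lb.isOpen i).mem_nhds b),
    hq.continuousAt.eventually ((hd.lb.isOpen j).mem_nhds c)] with z d1 d2 d3 d4 d5 d6
  refine mul_left_cancel₀ (ne z d3 d6) ?_
  rw [← d1, hd.sec.change i j _ d4 d5, d2]
  simp only [Pi.mul_apply, Function.comp_apply]
  ring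

end Vale.Agent.P300LX
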