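import Vale.Agent.P272.K.Stmt
import Mathlib.Analysis.Calculus.InverseFunctionTheorem.ContDiff
import Mathlib.Analysis.Calculus.FDeriv.Analytic
import Mathlib.Analysis.Analytic.Constructions
import Mathlib.Analysis.Calculus.ContDiff.Operations

/-!
# P300LX: immersions and charts of regular zero sets
-/

open Set Filter Topology Function
open scoped ContDiff
open Vale.Agent.P272.K (Cm Chart)

noncomputable section

namespace Vale.Agent.P300LX

variable {n : ℕ} {A E F : Type} [NormedAddCommGroup A] [NormedSpace ℂ A] [NormedAddCommGroup E]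
  [NormedSpace ℂ E] [NormedAddCommGroup F] [NormedSpace ℂ F]

/-- `f` is an analytic immersion at `z` -/
def Im (f : A → E) (z : A) : Prop := AnalyticAt ℂ f z ∧ Injective (fderiv ℂ f z)

theorem Im.of_comp {f : A → E} {g : A → F} {T : E → F} {z : A} (hg : Im g z)
    (hf : AnalyticAt ℂ f z) (hT : AnalyticAt ℂ T (f z)) (e : ∀ᶠ y in 𝓝 z, g y = T (f y)) :
    Im f z := by
  refine ⟨hf, Injective.of_comp (f := fderiv ℂ T (f z)) ?_⟩
  have h := (hT.differentiableAt.hasFDerivAt.comp z
    hf.differentiableAt.hasFDerivAt).congr_of_eventuallyEq e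
  have k := hg.2
  rwa [h.fderiv] at k

theorem Im.congr {f g : A → E} {z : A} (h : Im f z) (e : ∀ᶠ y in 𝓝 z, f y = g y) : Im g z :=
  h.of_comp (T := id) (h.1.congr e) analyticAt_id e

/-- a continuous map which is analytic after an immersion is analytic -/
theorem Im.an [FiniteDimensional ℂ E] {g : Cm n → E} {τ : A → Cm n} {z : A} (hg : Im g (τ z))
    (h : AnalyticAt ℂ (fun y => g (τ y)) z) (hτ : ContinuousAt τ z) : AnalyticAt ℂ τ z := by
  have : CompleteSpace E := FiniteDimensional.complete ℂ E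
  obtain ⟨L, hL⟩ := (fderiv ℂ g (τ z) : Cm n →ₗ[ℂ] E).exists_leftInverse_of_injective
    (LinearMap.ker_eq_bot.2 hg.2)
  let L' : E →L[ℂ] Cm n := LinearMap.toContinuousLinearMap L
  have h1 : ContDiffAt ℂ ω (fun y => L' (g y)) (τ z) :=
    L'.contDiff.contDiffAt.comp _ hg.1.contDiffAt
  have h2 : HasFDerivAt (fun y => L' (g y))
      (ContinuousLinearEquiv.refl ℂ (Cm n) : Cm n →L[ℂ] Cm n) (τ z) :=
    (L'.hasFDerivAt.comp (τ z) hg.1.differentiableAt.hasFDerivAt).congr_fderiv
      (ContinuousLinearMap.ext fun v => LinearMap.congr_fun hL v)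
  have h4 := (h1.to_localInverse h2 (by simp)).analyticAt
  refine (h4.comp (f := fun y => L' (g (τ y))) ((L'.analyticAt _).comp h)).congr ?_
  filter_upwards [hτ.eventually
    ((h1.toOpenPartialHomeomorph _ h2 (by simp)).eventually_left_inverse
    (h1.mem_toOpenPartialHomeomorph_source h2 (by simp)))] with y k using k

theorem par [FiniteDimensional ℂ E] [FiniteDimensional ℂ F] {h : E → F} {z : E}
    (ha : AnalyticAt ℂ h z) (hs : Surjective (fderiv ℂ h z))
    (hd : Module.finrank ℂ F + n = Module.finrank ℂ E) :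
    ∃ Φ : OpenPartialHomeomorph E (F × Cm n), z ∈ Φ.source ∧ (∀ w, (Φ w).1 = h w) ∧
      ∀ v ∈ Φ.target, Im Φ.symm v := by
  have : CompleteSpace E := FiniteDimensional.complete ℂ E
  have : CompleteSpace F := FiniteDimensional.complete ℂ F
  set B : E →ₗ[ℂ] F := (fderiv ℂ h z).toLinearMap with hB
  have hk : Module.finrank ℂ B.ker = n := by
    have h1 := B.finrank_range_add_finrank_ker
    rw [LinearMap.range_eq_top.2 hs, finrank_top] at h1
    omega
  obtain ⟨Q, hQ⟩ := B.ker.exists_isCompl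
  let ε : B.ker ≃ₗ[ℂ] Cm n := LinearEquiv.ofFinrankEq _ _ (by simp [hk])
  let P : E →L[ℂ] Cm n := LinearMap.toContinuousLinearMap
    (ε.toLinearMap ∘ₗ B.ker.projectionOnto Q hQ)
  let T : E →ₗ[ℂ] F × Cm n := B.prod P
  have hi : Injective T := by
    refine (injective_iff_map_eq_zero T).2 fun v hv => ?_
    have h1 : v ∈ B.ker := congrArg Prod.fst hv
    have h2 : ε (B.ker.projectionOnto Q hQ v) = 0 := congrArg Prod.snd hv
    rw [ε.map_eq_zero_iff, show v = ((⟨v, h1⟩ : B.ker) : E) from rfl,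
      Submodule.projectionOnto_apply_left] at h2
    exact congrArg Subtype.val h2
  let T' : E ≃L[ℂ] F × Cm n := (LinearMap.linearEquivOfInjective T hi
    (by simp [hd])).toContinuousLinearEquiv
  have h1 : AnalyticAt ℂ (fun w => (h w, P w)) z := ha.prod (P.analyticAt z)
  have h2 : HasFDerivAt (fun w => (h w, P w)) (T' : E →L[ℂ] F × Cm n) z := by
    have h0 : (T' : E →L[ℂ] F × Cm n) = (fderiv ℂ h z).prod P :=
      ContinuousLinearMap.ext fun _ => rfl
    rw [h0]
    exact ha.differentiableAt.hasFDerivAt.prodMk P.hasFDerivAt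
  have h3 : ContDiffAt ℂ ω (fun w => (h w, P w)) z := h1.contDiffAt
  set Θ := h3.toOpenPartialHomeomorph _ h2 (by simp) with hΘ
  have hsrc : z ∈ Θ.source := h3.mem_toOpenPartialHomeomorph_source h2 (by simp)
  have h4 : AnalyticAt ℂ Θ.symm (Θ z) :=
    (show ContDiffAt ℂ ω Θ.symm (h z, P z) from h3.to_localInverse h2 (by simp)).analyticAt
  have h5 : ∀ᶠ w in 𝓝 z, AnalyticAt ℂ Θ w ∧ AnalyticAt ℂ Θ.symm (Θ w) :=
    h1.eventually_analyticAt.and ((Θ.continuousAt hsrc).eventually h4.eventually_analyticAt)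
  obtain ⟨U, hU, hUo, hz⟩ := eventually_nhds_iff.1 h5
  refine ⟨Θ.restrOpen U hUo, ⟨hsrc, hz⟩, fun _ => rfl, fun v hv => ?_⟩
  have h6 := hU _ hv.2
  rw [show Θ ((Θ.symm : F × Cm n → E) v) = v from Θ.right_inv hv.1] at h6
  exact Im.of_comp (g := id) (T := Θ) ⟨analyticAt_id, by simpa using injective_id⟩ h6.2 h6.1
    ((Θ.eventually_right_inverse hv.1).mono fun _ => Eq.symm)

/-- a chart near a point of an open set `O` which is homeomorphic to a regular zero set `Z` -/
theorem exists_chart [FiniteDimensional ℂ E] [FiniteDimensional ℂ F] {Y : Type}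
    [TopologicalSpace Y] {O : Set Y} (hO : IsOpen O) {f : Y → E} (hf : ContinuousOn f O)
    {Z : Set E} {ι : E → Y} (hι : ContinuousOn ι Z) (m1 : ∀ y ∈ O, f y ∈ Z ∧ ι (f y) = y)
    (m2 : ∀ e ∈ Z, ι e ∈ O ∧ f (ι e) = e) {y : Y} (hy : y ∈ O) {h : E → F}
    (ha : AnalyticAt ℂ h (f y)) (hs : Surjective (fderiv ℂ h (f y)))
    (hd : Module.finrank ℂ F + n = Module.finrank ℂ E) (hZ : ∀ᶠ e in 𝓝 (f y), e ∈ Z ↔ h e = 0) :
    ∃ c : Chart n Y, y ∈ c.source ∧ ∀ z ∈ c.target, c.symm z ∈ O ∧
      Im (fun z => f (c.symm z)) z := by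
  obtain ⟨Φ, h1, h2, h3⟩ := par ha hs hd
  obtain ⟨U, hU, hUo, hz⟩ := eventually_nhds_iff.1 hZ
  set Θ := Φ.restrOpen U hUo
  have k0 : ∀ e ∈ Θ.source, e ∈ Z ↔ (Θ e).1 = 0 := fun e he => (hU e he.2).trans (by
    rw [show (Θ e).1 = h e from h2 e])
  have k1 : ∀ s, (0, s) ∈ Θ.target → Θ.symm (0, s) ∈ Z := fun s hs =>
    (k0 _ (Θ.map_target hs)).2 (by rw [Θ.right_inv hs])
  have k2 : ∀ y ∈ O, f y ∈ Θ.source → (0, (Θ (f y)).2) = Θ (f y) := fun y hy k =>
    Prod.ext ((k0 _ k).1 (m1 y hy).1).symm rfl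
  have k3 := Θ.open_target.preimage (Continuous.prodMk_right (0 : F))
  refine ⟨{ toFun := fun y => (Θ (f y)).2
            invFun := fun s => ι (Θ.symm (0, s))
            source := O ∩ f ⁻¹' Θ.source
            target := {s | (0, s) ∈ Θ.target}
            map_source' := fun y hy => show (0, _) ∈ Θ.target from
              (k2 y hy.1 hy.2).symm ▸ Θ.map_source hy.2
            map_target' := fun s hs => ⟨(m2 _ (k1 s hs)).1, by
              rw [mem_preimage, (m2 _ (k1 s hs)).2]
              exact Θ.map_target hs⟩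
            left_inv' := fun y hy => by rw [k2 y hy.1 hy.2, Θ.left_inv hy.2, (m1 y hy.1).2]
            right_inv' := fun s hs => by rw [(m2 _ (k1 s hs)).2, Θ.right_inv hs]
            open_source := hf.isOpen_inter_preimage hO Θ.open_source
            open_target := k3
            continuousOn_toFun := (Θ.continuousOn.comp (hf.mono inter_subset_left)
              fun _ h => h.2).snd
            continuousOn_invFun := hι.comp (Θ.continuousOn_symm.comp
              (Continuous.prodMk_right 0).continuousOn fun _ h => h) k1 },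
    ⟨hy, h1, hz⟩, fun s hs => ⟨(m2 _ (k1 s hs)).1, ?_⟩⟩
  have k4 := h3 _ hs.1
  have k5 : HasFDerivAt (fun s => Φ.symm (0, s)) _ s :=
    k4.1.differentiableAt.hasFDerivAt.comp s (hasFDerivAt_prodMk_right 0 s)
  refine Im.congr (f := fun s => Φ.symm (0, s)) ⟨k4.1.comp (f := fun s => (0, s))
    (analyticAt_const.prod analyticAt_id), ?_⟩ ?_
  · rw [k5.fderiv]
    exact k4.2.comp (Prod.mk_right_injective 0)
  · filter_upwards [k3.mem_nhds hs] with s' hs' using (m2 _ (k1 s' hs')).2.symm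

end Vale.Agent.P300LX
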