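import Vale.Agent.P300LX.Mfd
import Mathlib.Analysis.Calculus.Deriv.Mul
import Mathlib.Analysis.Calculus.Deriv.Add

/-!
# P300LX: the action on the resolved double cover
-/

open Set Filter Topology Function
open Vale.Agent.P272.K (Cm Chart At)

noncomputable section

namespace Vale.Agent.P300LX

section

variable {A E F : Type} [NormedAddCommGroup A] [NormedSpace ℂ A] [NormedAddCommGroup E]
  [NormedSpace ℂ E] [NormedAddCommGroup F] [NormedSpace ℂ F] {z : A}

theorem Im.comp {f : A → E} {g : E → F} (hg : Im g (f z)) (hf : Im f z) :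
    Im (fun a => g (f a)) z :=
  ⟨hg.1.comp hf.1, by
    rw [show fderiv ℂ (fun a => g (f a)) z = _ from (hg.1.differentiableAt.hasFDerivAt.comp z
      hf.1.differentiableAt.hasFDerivAt).fderiv]
    exact hg.2.comp hf.2⟩

theorem Dat.lim_of_chart {D : Dat} {s : A → D.Xh} {c : Chart 2 D.Xh} (hs : ContinuousAt s z)
    (h : At c (s z)) (ha : Im (fun a => c (s a)) z) : Dat.Lim s z :=
  have k := hs.eventually (c.eventually_left_inverse h.2)
  ⟨Dat.lan_of_chart hs h ha.1, fun h0 => ((Dat.im_F0 h h0).comp (f := fun a => c (s a)) ha).congr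
    (k.mono fun _ e => congrArg Dat.F0 e), fun p l h0 => ((Dat.im_crd h h0).comp
    (f := fun a => c (s a)) ha).congr (k.mono fun _ e => congrArg (Dat.crd p l) e)⟩

theorem Dat.Lan.congr {D : Dat} {s s' : A → D.Xh} (h : Dat.Lan s z)
    (e : ∀ᶠ a in 𝓝 z, s a = s' a) : Dat.Lan s' z :=
  ⟨h.cont.congr e, h.off.congr (e.mono fun _ => congrArg Dat.F0), fun p l k =>
    (h.nr p l (e.self_of_nhds ▸ k)).congr (e.mono fun _ => congrArg (Dat.crd p l))⟩

theorem Dat.Lim.congr {D : Dat} {s s' : A → D.Xh} (h : Dat.Lim s z)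
    (e : ∀ᶠ a in 𝓝 z, s a = s' a) : Dat.Lim s' z :=
  ⟨h.toLan.congr e, fun k => (h.off' (e.self_of_nhds ▸ k)).congr (e.mono fun _ => congrArg Dat.F0),
    fun p l k => (h.nr' p l (e.self_of_nhds ▸ k)).congr (e.mono fun _ => congrArg (Dat.crd p l))⟩

theorem Dat.at_chartAt {D : Dat} (y : D.Xh) : At (chartAt (Cm 2) y) y :=
  ⟨chart_mem_atlas _ _, mem_chart_source _ _⟩

end

namespace Act

open Dat

variable {D : Dat} {G : Type} [Group G] (B : Act D G) {g g' : G} {x x' : Cm 2} {p p' : D.S}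
  {u : ℂ × Cm 2} {q : E3} {y : D.Xh} {c : ℂ}

theorem inv_a (g : G) (h : x ∈ D.Om) : B.a g⁻¹ (B.a g x) = x := by
  rw [← B.mul _ _ _ h, inv_mul_cancel, B.one _ h]

theorem a_inv (g : G) (h : x ∈ D.Om) : B.a g (B.a g⁻¹ x) = x := by
  rw [← B.mul _ _ _ h, mul_inv_cancel, B.one _ h]

theorem a_inj (h : x ∈ D.Om) (h' : x' ∈ D.Om) (e : B.a g x = B.a g x') : x = x' := by
  rw [← B.inv_a g h, e, B.inv_a g h']

theorem a_mem_S (g : G) (h : x ∈ D.Om) : B.a g x ∈ D.S ↔ x ∈ D.S :=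
  ⟨fun k => B.inv_a g h ▸ B.mapsS _ _ k, B.mapsS _ _⟩

theorem j_ne (g : G) (h : x ∈ D.Om) : B.j g x ≠ 0 := fun e => by
  have := B.j_mul g⁻¹ g x h
  rw [inv_mul_cancel, B.j_one _ h, e, mul_zero] at this
  exact one_ne_zero this

theorem im_a (g : G) (h : x ∈ D.Om) : Im (B.a g) x :=
  Im.of_comp (g := id) (T := B.a g⁻¹) ⟨analyticAt_id, by simpa using injective_id⟩ (B.an g x h)
    (B.an _ _ (B.maps g x h)) (by
      filter_upwards [D.op.mem_nhds h] with z hz using (B.inv_a g hz).symm)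

/-- the action on `S` -/
def gp (g : G) (p : D.S) : D.S := ⟨B.a g p, B.mapsS g p p.2⟩

theorem gp_inj (e : B.gp g p = B.gp g p') : p = p' :=
  Subtype.ext (B.a_inj (D.sub p.2) (D.sub p'.2) (congrArg Subtype.val e))

theorem gp_inv (g : G) (p : D.S) : B.gp g (B.gp g⁻¹ p) = p := Subtype.ext (B.a_inv g (D.sub p.2))

theorem k_gp (g : G) (p : D.S) : D.k (B.gp g p) = D.k p := B.k_eq g p p.2

theorem ev_bd {v : Cm 2} (p : D.S) : ∀ᶠ t in 𝓝 (0 : ℂ), bd p (t, v) ∈ D.Om :=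
  (show ContinuousAt (fun t : ℂ => bd p (t, v)) 0 by fun_prop).eventually
    (D.op.mem_nhds (by simpa only [bd_zero] using D.sub p.2))

theorem A_zero (g : G) (p : D.S) {v : Cm 2} (h : v ≠ 0) :
    B.A g p (0, v) = fderiv ℂ (B.a g) p v := by
  have h0 : HasDerivAt (fun t : ℂ => (t, v)) (1, 0) 0 :=
    (hasDerivAt_id (0 : ℂ)).prodMk (hasDerivAt_const _ v)
  have h1 := (B.A_an g p p.2 (0, v) h
    (ev_bd p).self_of_nhds).differentiableAt.hasFDerivAt.comp_hasDerivAt (0 : ℂ) h0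
  have h2 : HasDerivAt (fun t : ℂ => bd p (t, v)) v 0 := by
    simpa [bd] using ((hasDerivAt_id (0 : ℂ)).smul_const v).const_add (p : Cm 2)
  have h3 := HasFDerivAt.comp_hasDerivAt (l := B.a g) (0 : ℂ)
    (by simpa [bd] using (B.an g p (D.sub p.2)).differentiableAt.hasFDerivAt) h2
  have h4 := ((hasDerivAt_id (0 : ℂ)).smul h1).const_add (B.a g p)
  simpa using (h4.congr_of_eventuallyEq ((ev_bd p).mono fun t k =>
    B.A_eq g p p.2 (t, v) h k)).unique h3

theorem A_ne (g : G) (h : u.2 ≠ 0) (h' : bd p u ∈ D.Om) : B.A g p u ≠ 0 := fun e => by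
  by_cases ht : u.1 = 0
  · rw [show u = (0, u.2) from Prod.ext ht rfl, B.A_zero g p h] at e
    exact h ((B.im_a g (D.sub p.2)).2 (e.trans (map_zero _).symm))
  · refine ht ((bd_eq_iff h).1 (B.a_inj (g := g) h' (D.sub p.2) ?_))
    rw [B.A_eq g p p.2 u h h', e, bd, smul_zero, add_zero]

theorem A_scl (g : G) (hc : c ≠ 0) (h : u.2 ≠ 0) (h' : bd p u ∈ D.Om) :
    B.A g p (u.1 / c, c • u.2) = c • B.A g p u := by
  by_cases ht : u.1 = 0
  · rw [show u = (0, u.2) from Prod.ext ht rfl, zero_div, B.A_zero g p h,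
      B.A_zero g p (smul_ne_zero hc h), map_smul]
  · have e : bd p (u.1 / c, c • u.2) = bd p u := bd_scl (k := 0) hc p (u, 0)
    have h1 := B.A_eq g p p.2 (u.1 / c, c • u.2) (smul_ne_zero hc h) (e ▸ h')
    rw [e, B.A_eq g p p.2 u h h', bd, bd, add_right_inj] at h1
    refine smul_right_injective _ (div_ne_zero ht hc) ?_
    simp only [smul_smul, div_mul_cancel₀ _ hc]
    exact h1.symm

theorem hb_act (g : G) (h : u.2 ≠ 0) (h' : bd p u ∈ D.Om) :
    D.hb (B.a g p) (u.1, B.A g p u) = B.j g (bd p u) ^ 2 * D.hb p u := by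
  have key : ∀ t, t ≠ 0 → bd p (t, u.2) ∈ D.Om → D.hb (B.a g p) (t, B.A g p (t, u.2)) =
      B.j g (bd p (t, u.2)) ^ 2 * D.hb p (t, u.2) := fun t ht k => by
    have e := B.A_eq g p p.2 (t, u.2) h k
    have h1 := D.hb_eq _ (B.mapsS g p p.2) (t, B.A g p (t, u.2)) (B.A_ne g h k)
      (e ▸ B.maps g _ k)
    rw [← e, B.h_eq g _ k, D.hb_eq p p.2 (t, u.2) h k, B.k_eq g p p.2] at h1
    exact mul_left_cancel₀ (pow_ne_zero (2 * D.k p) ht) (h1.symm.trans (mul_left_comm _ _ _))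
  by_cases ht : u.1 = 0
  · obtain ⟨t, v⟩ := u
    obtain rfl : t = 0 := ht
    have k0 : ContinuousAt (fun t : ℂ => (t, v)) 0 := by fun_prop
    refine eq_at_zero (f := fun t => D.hb (B.a g p) (t, B.A g p (t, v)))
      (g := fun t => B.j g (bd p (t, v)) ^ 2 * D.hb p (t, v)) ?_ ?_
      ((ev_bd p).mono fun t k ht => key t ht k)
    · refine ContinuousAt.comp (g := D.hb (B.a g p)) (D.hb_an _ (B.mapsS g p p.2) _ (B.A_ne g h h')
        ?_).continuousAt (continuousAt_id.prodMk (ContinuousAt.comp (g := B.A g p)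
        (B.A_an g p p.2 _ h h').continuousAt k0))
      rw [bd_zero]
      exact B.maps g _ (D.sub p.2)
    · exact ((ContinuousAt.comp (g := B.j g) (f := fun t => bd p (t, v))
        (B.j_an g _ h').continuousAt (by fun_prop)).pow 2).mul
        (ContinuousAt.comp (g := D.hb p) (D.hb_an p p.2 _ h h').continuousAt k0)
  · exact key _ ht h'

/-- the action in homogeneous coordinates -/
def tq (g : G) (p : Cm 2) (q : E3) : E3 := ((q.1.1, B.A g p q.1), B.j g (bd p q.1) * q.2)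

theorem bd_tq (g : G) (h : D.Cx p q) : bd (B.a g p) (B.tq g p q).1 = B.a g (bd p q.1) :=
  (B.A_eq g p p.2 _ h.1 h.2.1).symm

theorem cx_tq (g : G) (h : D.Cx p q) : D.Cx (B.a g p) (B.tq g p q) :=
  ⟨B.A_ne g h.1 h.2.1, (B.bd_tq g h).symm ▸ B.maps g _ h.2.1, by
    rw [tq, B.hb_act g h.1 h.2.1, mul_pow, h.2.2]⟩

theorem tq_scl (g : G) {k : ℕ} (h : D.Cx p q) (hc : c ≠ 0) :
    B.tq g p (scl k c q) = scl k c (B.tq g p q) :=
  Prod.ext (Prod.ext rfl (B.A_scl g hc h.1 h.2.1)) (by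
    rw [tq, bd_scl hc]
    exact mul_left_comm _ _ _)

theorem tq_an (g : G) (h : D.Cx p q) : AnalyticAt ℂ (B.tq g p) q :=
  ((analyticAt_fst.comp analyticAt_fst).prod ((B.A_an g p p.2 _ h.1 h.2.1).comp
    (f := Prod.fst) analyticAt_fst)).prod (((B.j_an g _ h.2.1).comp (f := fun q : E3 => bd p q.1)
    ((bd_an _ _).comp analyticAt_fst)).mul analyticAt_snd)

theorem repA_tq {T} (e : B.gp g p = p') (h : Rep p y q)
    (hT : T p' = tau (D.k p') ((B.tq g p q).1.2, (B.tq g p q).2)) :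
    D.RepA p' (B.a g (π y), B.j g (π y) * w y, T) (B.tq g p q) := by
  subst e
  refine ⟨B.cx_tq g h.cx, ?_, ?_, hT⟩
  · rw [h.π]
    exact (B.bd_tq g h.cx).symm
  · rw [h.w', h.π, k_gp]
    exact mul_left_comm _ _ _

/-- the action -/
def sm (g : G) (y : D.Xh) : D.Xh :=
  ⟨(B.a g (π y), B.j g (π y) * w y, fun p' => tau (D.k p')
      ((B.tq g (B.gp g⁻¹ p') (ex_rep (B.gp g⁻¹ p') y).choose).1.2,
        (B.tq g (B.gp g⁻¹ p') (ex_rep (B.gp g⁻¹ p') y).choose).2)),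
    B.maps g _ (π_mem y), by rw [B.h_eq g _ (π_mem y), ← w_sq, mul_pow], fun p' =>
    ⟨_, B.repA_tq (B.gp_inv g p') (ex_rep _ y).choose_spec rfl⟩⟩

@[simp] theorem π_sm (g : G) (y : D.Xh) : π (B.sm g y) = B.a g (π y) := rfl

@[simp] theorem w_sm (g : G) (y : D.Xh) : w (B.sm g y) = B.j g (π y) * w y := rfl

theorem rep_sm (g : G) (h : Rep p y q) : Rep (B.gp g p) (B.sm g y) (B.tq g p q) := by
  obtain ⟨p₀, q₀, h1, h2, h3⟩ : ∃ p₀ q₀, B.gp g p₀ = B.gp g p ∧ Rep p₀ y q₀ ∧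
      Rep (B.gp g p) (B.sm g y) (B.tq g p₀ q₀) :=
    ⟨_, _, B.gp_inv g _, (ex_rep _ y).choose_spec,
      B.repA_tq (B.gp_inv g _) (ex_rep _ y).choose_spec rfl⟩
  obtain rfl := B.gp_inj h1
  obtain ⟨c, hc, rfl⟩ := h2.uniq h
  rw [B.tq_scl g h2.cx hc, ← B.k_gp g]
  exact h3.scl hc

theorem sm_off (g : G) : π (B.sm g y) ∉ D.S ↔ π y ∉ D.S := (B.a_mem_S g (π_mem y)).not

theorem sm_near (g : G) (h : π y ∈ D.S → π y = p) :
    π (B.sm g y) ∈ D.S → π (B.sm g y) = B.gp g p := fun k =>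
  congrArg (B.a g) (h ((B.a_mem_S g (π_mem y)).1 k))

theorem cont_a (g : G) : Continuous fun y : D.Xh => B.a g (π y) :=
  continuous_iff_continuousAt.2 fun y =>
    (B.an g _ (π_mem y)).continuousAt.comp cont_π.continuousAt

theorem cont_j (g : G) : Continuous fun y : D.Xh => B.j g (π y) :=
  continuous_iff_continuousAt.2 fun y =>
    (B.j_an g _ (π_mem y)).continuousAt.comp cont_π.continuousAt

theorem cont_sm (g : G) : Continuous (B.sm g) :=
  continuous_iff_continuousAt.2 fun y => by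
    rcases cover y with h | ⟨p, l, -, h⟩
    · exact contAt0 ((B.sm_off g).2 h) (B.cont_a g).continuousAt
        ((B.cont_j g).mul cont_w).continuousAt
    · exact tendsto_rep (B.rep_sm g (rep_crd h)) (B.sm_near g h.1)
        ((B.tq_an g (rep_crd h).cx).continuousAt.comp (contAt_crd h))
        (((isOpen_O p l).eventually_mem h).mono fun _ k => B.rep_sm g (rep_crd k))

theorem sm_one (y : D.Xh) : B.sm 1 y = y :=
  congrFun (Continuous.ext_on dense_off (B.cont_sm 1) continuous_id fun y h =>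
    ext0 ((B.sm_off 1).2 h) (B.one _ (π_mem y)) (by simp [B.j_one _ (π_mem y)])) y

theorem sm_mul (g g' : G) (y : D.Xh) : B.sm (g * g') y = B.sm g (B.sm g' y) :=
  congrFun (Continuous.ext_on dense_off (B.cont_sm _) ((B.cont_sm g).comp (B.cont_sm g'))
    fun y h => ext0 ((B.sm_off _).2 h) (B.mul _ _ _ (π_mem y))
      (by simp [B.j_mul _ _ _ (π_mem y), mul_assoc])) y

theorem sm_pt0 (g : G) (z : D.Dom0) (h) :
    B.sm g (pt0 z) = pt0 ⟨(B.a g z.1.1, B.j g z.1.1 * z.1.2), h⟩ := ext0 h.2.1 rfl rfl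

theorem sm_pt (g : G) (q : D.Dom p) (h) :
    B.sm g (pt p q) = pt (B.gp g p) ⟨B.tq g p q, h⟩ := ((B.rep_sm g (rep_pt q)).pt_eq h).symm

theorem lan_sm {A : Type} [NormedAddCommGroup A] [NormedSpace ℂ A] {s : A → D.Xh} {z : A} (g : G)
    (hs : Lan s z) : Lan (fun a => B.sm g (s a)) z := by
  rcases cover (s z) with h | ⟨p, l, -, h⟩
  · have k : AnalyticAt ℂ (fun a => π (s a)) z :=
      AnalyticAt.comp (g := Prod.fst) (f := fun a => F0 (s a)) analyticAt_fst hs.off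
    exact lan_off ((B.sm_off g).2 h) (((B.an g _ (π_mem _)).comp (f := fun a => π (s a)) k).prod
      (((B.j_an g _ (π_mem _)).comp (f := fun a => π (s a)) k).mul
      (AnalyticAt.comp (g := Prod.snd) (f := fun a => F0 (s a)) analyticAt_snd hs.off)))
  · exact lan_rep (B.sm_near g h.1) ((B.tq_an g (rep_crd h).cx).comp (f := fun a => crd p l (s a))
      (hs.nr p l h)) ((hs.cont.eventually ((isOpen_O p l).mem_nhds h)).mono fun _ k =>
      B.rep_sm g (rep_crd k))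

theorem sm_inv (g : G) (y : D.Xh) : B.sm g⁻¹ (B.sm g y) = y := by
  rw [← sm_mul, inv_mul_cancel, sm_one]

theorem lim_sm {A : Type} [NormedAddCommGroup A] [NormedSpace ℂ A] {s : A → D.Xh} {z : A} (g : G)
    (hs : Lim s z) : Lim (fun a => B.sm g (s a)) z := by
  have h := B.lan_sm g hs.toLan
  have h1 := at_chartAt (s z)
  have h2 := at_chartAt (B.sm g (s z))
  refine lim_of_chart h.cont h2 ((hs.chart h1).of_comp (h.chart h2) ((B.lan_sm g⁻¹
    (at_lim h2).toLan).chart (c := chartAt (Cm 2) (s z)) ?_) ?_)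
  · rwa [OpenPartialHomeomorph.left_inv _ h2.2, sm_inv]
  · filter_upwards [h.cont.eventually (OpenPartialHomeomorph.eventually_left_inverse _ h2.2)]
      with a ha
    rw [ha, sm_inv]

theorem sm_free (h : B.sm g y = y) : g = 1 := B.free g _ (π_mem y) (congrArg π h)

theorem sm_proper {K : Set D.Xh} (hK : IsCompact K) : {g | (B.sm g '' K ∩ K).Nonempty}.Finite :=
  (B.proper _ (by rintro _ ⟨y, -, rfl⟩; exact π_mem y) (hK.image cont_π)).subset
    fun _ ⟨_, ⟨y, h1, h2⟩, h3⟩ => ⟨_, ⟨y, h1, rfl⟩, _, h3, by rw [← h2]; rfl⟩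

theorem sm_cocompact : ∃ K : Set D.Xh, IsCompact K ∧ ∀ y, ∃ g, B.sm g y ∈ K :=
  let ⟨_, h1, h2, h3⟩ := B.cocompact
  ⟨_, isCompact_pre h2 h1, fun y => h3 _ (π_mem y)⟩

end Act

end Vale.Agent.P300LX
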