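import Vale.Agent.P272.K.Stmt
import Mathlib.Analysis.Analytic.Constructions
import Mathlib.Analysis.Calculus.FDeriv.Analytic

/-!
# P300LX: the resolved double cover `w² = h` of a domain blown up in a discrete set
-/

open Set Filter Topology Function
open scoped ComplexConjugate
open Vale.Agent.P272.K (Cm)

noncomputable section

namespace Vale.Agent.P300LX

/-- homogeneous coordinates `((t, v), ω)` -/
abbrev E3 : Type := (ℂ × Cm 2) × ℂ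

/-- linear forms -/
abbrev Lf : Type := Cm 2 →L[ℂ] ℂ

/-- the square of the length -/
def nn (v : Cm 2) : ℂ := ∑ a, v a * conj (v a)

/-- the scaling with the weights `1, 1, k` -/
def sc (k : ℕ) (c : ℂ) (q : Cm 2 × ℂ) : Cm 2 × ℂ := (c • q.1, c ^ k * q.2)

/-- an invariant of the orbit of `(v, ω)` -/
def tau (k : ℕ) (q : Cm 2 × ℂ) (l : Lf) : Cm 2 × ℂ := sc k (conj (l q.1) / nn q.1) q

/-- the scaling with the weights `-1, 1, 1, k` -/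
def scl (k : ℕ) (c : ℂ) (q : E3) : E3 := ((q.1.1 / c, c • q.1.2), c ^ k * q.2)

/-- the point `p + t v` -/
def bd (p : Cm 2) (u : ℂ × Cm 2) : Cm 2 := p + u.1 • u.2

/-- The function `h` on the open set `Om` vanishes to the order `2 k p` at the points `p` of the
closed discrete set `S`; its zero set is smooth off `S` and has distinct tangents at `S`. -/
structure Dat where
  Om : Set (Cm 2)
  S : Set (Cm 2)
  k : Cm 2 → ℕ
  h : Cm 2 → ℂ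
  hb : Cm 2 → ℂ × Cm 2 → ℂ
  op : IsOpen Om
  sub : S ⊆ Om
  disc : ∀ x ∈ Om, ∀ᶠ y in 𝓝 x, y ∈ S → y = x
  kpos : ∀ p ∈ S, 0 < k p
  an : ∀ x ∈ Om, AnalyticAt ℂ h x
  hb_an : ∀ p ∈ S, ∀ u : ℂ × Cm 2, u.2 ≠ 0 → bd p u ∈ Om → AnalyticAt ℂ (hb p) u
  hb_eq : ∀ p ∈ S, ∀ u : ℂ × Cm 2, u.2 ≠ 0 → bd p u ∈ Om →
    h (bd p u) = u.1 ^ (2 * k p) * hb p u
  reg : ∀ x ∈ Om, x ∉ S → h x = 0 → fderiv ℂ h x ≠ 0
  hb_reg : ∀ p ∈ S, ∀ v, v ≠ 0 → hb p (0, v) = 0 → fderiv ℂ (fun u => hb p (0, u)) v ≠ 0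

namespace Dat

variable (D : Dat)

/-- the equation in homogeneous coordinates -/
def Cx (p : Cm 2) (q : E3) : Prop := q.1.2 ≠ 0 ∧ bd p q.1 ∈ D.Om ∧ q.2 ^ 2 = D.hb p q.1

/-- the ambient space -/
abbrev Amb : Type := Cm 2 × ℂ × (D.S → Lf → Cm 2 × ℂ)

/-- `q` are homogeneous coordinates of `y` at `p` -/
structure RepA (p : D.S) (y : D.Amb) (q : E3) : Prop where
  cx : D.Cx p q
  x : y.1 = bd p q.1
  w : y.2.1 = q.1.1 ^ D.k p * q.2
  t : y.2.2 p = tau (D.k p) (q.1.2, q.2)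

/-- the resolved double cover -/
def Xh : Type :=
  {y : D.Amb // y.1 ∈ D.Om ∧ y.2.1 ^ 2 = D.h y.1 ∧ ∀ p : D.S, ∃ q, D.RepA p y q}

instance : TopologicalSpace D.Xh := instTopologicalSpaceSubtype

instance : T2Space D.Xh := inferInstanceAs (T2Space (Subtype _))

variable {D}

/-- the projection -/
def π (y : D.Xh) : Cm 2 := y.1.1

/-- the root of `h` -/
def w (y : D.Xh) : ℂ := y.1.2.1

/-- `q` are homogeneous coordinates of `y` at `p` -/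
abbrev Rep (p : D.S) (y : D.Xh) (q : E3) : Prop := D.RepA p y.1 q

variable (D)

/-- the double cover off `S` -/
def Dom0 : Set (Cm 2 × ℂ) := {z | z.1 ∈ D.Om ∧ z.1 ∉ D.S ∧ z.2 ^ 2 = D.h z.1}

/-- the domain of the homogeneous coordinates at `p` -/
def Dom (p : Cm 2) : Set E3 := {q | D.Cx p q ∧ (bd p q.1 ∈ D.S → bd p q.1 = p)}

variable {D}

theorem repA_ne {p : D.S} {y : D.Amb} (h1 : y.1 ∈ D.Om) (h2 : y.2.1 ^ 2 = D.h y.1) (h3 : y.1 ≠ p)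
    (h4 : y.2.2 p = tau (D.k p) (y.1 - p, y.2.1)) : D.RepA p y ((1, y.1 - p), y.2.1) := by
  have e : bd p (1, y.1 - p) = y.1 := by simp [bd]
  have := D.hb_eq p p.2 (1, y.1 - p) (sub_ne_zero.2 h3) (e.symm ▸ h1)
  rw [e, one_pow, one_mul] at this
  exact ⟨⟨sub_ne_zero.2 h3, e.symm ▸ h1, h2.trans this⟩, e.symm, by simp, h4⟩

theorem Cx.sq {p : D.S} {q : E3} (h : D.Cx p q) :
    (q.1.1 ^ D.k p * q.2) ^ 2 = D.h (bd p q.1) := by
  rw [D.hb_eq p p.2 _ h.1 h.2.1, ← h.2.2]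
  ring

/-- the point `(x, w)` -/
def pt0 (z : D.Dom0) : D.Xh :=
  ⟨(z.1.1, z.1.2, fun p => tau (D.k p) (z.1.1 - p, z.1.2)), z.2.1, z.2.2.2, fun p =>
    ⟨_, repA_ne z.2.1 z.2.2.2 (fun e => z.2.2.1 (by rw [show z.1.1 = p from e]; exact p.2)) rfl⟩⟩

open Classical in
/-- the point with the homogeneous coordinates `q` -/
def ptA (p : D.S) (q : E3) : D.Amb :=
  (bd p q.1, q.1.1 ^ D.k p * q.2, fun p' => if p' = p then tau (D.k p) (q.1.2, q.2) else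
    tau (D.k p') (bd p q.1 - p', q.1.1 ^ D.k p * q.2))

/-- the point with the homogeneous coordinates `q` -/
def pt (p : D.S) (q : D.Dom p) : D.Xh :=
  ⟨ptA p q, q.2.1.2.1, q.2.1.sq, fun p' => by
    by_cases e : p' = p
    · subst e
      exact ⟨q, q.2.1, rfl, rfl, if_pos rfl⟩
    · exact ⟨_, repA_ne q.2.1.2.1 q.2.1.sq (fun e' => e (Subtype.ext
        (e'.symm.trans (q.2.2 (by rw [show bd p q.1.1 = p' from e']; exact p'.2))))) (if_neg e)⟩⟩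

/-- the points near the exceptional curve over `p` whose direction is not in the kernel of `l` -/
def O (p : D.S) (l : Lf) : Set D.Xh := {y | (π y ∈ D.S → π y = p) ∧ l (y.1.2.2 p l).1 ≠ 0}

/-- the homogeneous coordinates with `l v = 1` -/
def crd (p : D.S) (l : Lf) (y : D.Xh) : E3 :=
  ((l (π y - p), (l (y.1.2.2 p l).1)⁻¹ • (y.1.2.2 p l).1),
    (l (y.1.2.2 p l).1)⁻¹ ^ D.k p * (y.1.2.2 p l).2)

/-- the exceptional curve over `p` -/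
def Ex (p : Cm 2) : Set D.Xh := π ⁻¹' {p}

end Dat

/-- A free, properly discontinuous, cocompact action on `Om` which lifts to the double cover. -/
structure Act (D : Dat) (G : Type) [Group G] where
  a : G → Cm 2 → Cm 2
  j : G → Cm 2 → ℂ
  A : G → Cm 2 → ℂ × Cm 2 → Cm 2
  maps : ∀ g, ∀ x ∈ D.Om, a g x ∈ D.Om
  one : ∀ x ∈ D.Om, a 1 x = x
  mul : ∀ g g', ∀ x ∈ D.Om, a (g * g') x = a g (a g' x)
  an : ∀ g, ∀ x ∈ D.Om, AnalyticAt ℂ (a g) x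
  j_one : ∀ x ∈ D.Om, j 1 x = 1
  j_mul : ∀ g g', ∀ x ∈ D.Om, j (g * g') x = j g (a g' x) * j g' x
  j_an : ∀ g, ∀ x ∈ D.Om, AnalyticAt ℂ (j g) x
  h_eq : ∀ g, ∀ x ∈ D.Om, D.h (a g x) = j g x ^ 2 * D.h x
  mapsS : ∀ g, ∀ p ∈ D.S, a g p ∈ D.S
  k_eq : ∀ g, ∀ p ∈ D.S, D.k (a g p) = D.k p
  A_an : ∀ g, ∀ p ∈ D.S, ∀ u : ℂ × Cm 2, u.2 ≠ 0 → bd p u ∈ D.Om → AnalyticAt ℂ (A g p) u
  A_eq : ∀ g, ∀ p ∈ D.S, ∀ u : ℂ × Cm 2, u.2 ≠ 0 → bd p u ∈ D.Om →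
    a g (bd p u) = bd (a g p) (u.1, A g p u)
  free : ∀ g, ∀ x ∈ D.Om, a g x = x → g = 1
  proper : ∀ K ⊆ D.Om, IsCompact K → {g | ∃ x ∈ K, a g x ∈ K}.Finite
  cocompact : ∃ K ⊆ D.Om, IsCompact K ∧ ∀ x ∈ D.Om, ∃ g, a g x ∈ K

end Vale.Agent.P300LX
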