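import Vale.Agent.P300LX.Quo
import Vale.Agent.P300LG.Defs
import Vale.Agent.P277Z.Slc.Div

/-!
# P300LX: the exceptional curve and the chosen sheets are smooth divisors
-/

open Set Filter Topology Function
open Vale.Agent.P272.K (Cm Chart At)
open Vale.Agent.P277Z (Hol)
open Vale.Agent.P277Z.Slc (LEq IsDiv stUnit)
open Vale.Agent.P300LG

noncomputable section

namespace Vale.Agent.P300LX

/-- a function whose differential is independent of those of the equations of a surface -/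
theorem Im.ne {E F E' : Type} [NormedAddCommGroup E] [NormedSpace ℂ E] [NormedAddCommGroup F]
    [NormedSpace ℂ F] [NormedAddCommGroup E'] [NormedSpace ℂ E'] [FiniteDimensional ℂ E]
    [FiniteDimensional ℂ F] {γ : Cm 2 → E} {z : Cm 2} (hγ : Im γ z) {H : E → F} {H' : E →L[ℂ] F}
    (hH : HasFDerivAt H H' (γ z)) (h0 : ∀ᶠ a in 𝓝 z, H (γ a) = 0) {ζ : E → ℂ} {ζ' : E →L[ℂ] ℂ}
    (hζ : HasFDerivAt ζ ζ' (γ z)) (J : E' →L[ℂ] E) (hJ : ∀ e, ζ' (J e) = 0)
    (hs : Surjective (H'.comp J)) {b : E} (hb : ζ' b = 1)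
    (hd : Module.finrank ℂ E = Module.finrank ℂ F + 2) : fderiv ℂ (fun a => ζ (γ a)) z ≠ 0 := by
  intro k
  have h1 := hγ.1.differentiableAt.hasFDerivAt
  have h2 := (hH.comp z h1).unique ((hasFDerivAt_const 0 z).congr_of_eventuallyEq h0)
  rw [show fderiv ℂ (fun a => ζ (γ a)) z = _ from (hζ.comp z h1).fderiv] at k
  let T : E →ₗ[ℂ] F × ℂ := (H'.prod ζ' : E →L[ℂ] F × ℂ)
  have h3 : T.range = ⊤ := LinearMap.range_eq_top.2 fun v => by
    obtain ⟨e, he⟩ := hs (v.1 - v.2 • H' b)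
    refine ⟨J e + v.2 • b, Prod.ext ?_ ?_⟩
    · simp [T, show H' (J e) = _ from he]
    · simp [T, hJ, hb]
  have h4 : (fderiv ℂ γ z : Cm 2 →ₗ[ℂ] E).range ≤ T.ker := by
    rintro _ ⟨v, rfl⟩
    exact Prod.ext (DFunLike.congr_fun h2 v) (DFunLike.congr_fun k v)
  have h5 := Submodule.finrank_mono h4
  have h6 := T.finrank_range_add_finrank_ker
  rw [LinearMap.finrank_range_of_inj hγ.2] at h5
  rw [h3, finrank_top, Module.finrank_prod, hd] at h6
  simp at h5 h6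
  omega

theorem leq_one {W : Type} [TopologicalSpace W] [ChartedSpace (Cm 2) W] {T : Set W} {y : W}
    (h : ∀ᶠ y' in 𝓝 y, y' ∉ T) : LEq 2 T y fun _ => 1 :=
  ⟨h.mono fun _ k => iff_of_false one_ne_zero k,
    fun _ _ => ⟨analyticAt_const, fun k => absurd k one_ne_zero⟩⟩

namespace Dat

variable {D : Dat} {p : D.S} {y : D.Xh} {l : Lf}

/-- the coordinate `t` is an equation of the exceptional curve -/
theorem leq_t {T : Set (Cm 2)} (hT : T ⊆ D.S) (hp : p.1 ∈ T) (h : π y = p) (hl : y ∈ O p l) :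
    LEq 2 (π ⁻¹' T) y fun y => (crd p l y).1.1 := by
  refine ⟨((isOpen_O p l).eventually_mem hl).mono fun y' k => (rep_crd k).π_iff.symm.trans
    ⟨fun e => show π y' ∈ T from e ▸ hp, fun e => k.1 (hT e)⟩, fun c hc => ⟨(analyticAt_fst.comp
      analyticAt_fst).comp (f := fun z => crd p l (c.symm z)) (im_crd hc hl).1, fun _ => ?_⟩⟩
  have hq := rep_crd hl
  have h0 := D.hb_an p p.2 _ hq.cx.1 hq.cx.2.1
  have h2 : HasFDerivAt (fun e : E3 => (l e.1.2 - 1, e.2 ^ 2 - D.hb p e.1)) _ (crd p l y) :=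
    ((l.hasFDerivAt.comp _ (hasFDerivAt_snd.comp _ hasFDerivAt_fst)).sub_const 1).prodMk
      ((hasFDerivAt_snd.pow 2).sub (h0.differentiableAt.hasFDerivAt.comp (crd p l y) hasFDerivAt_fst))
  refine (im_crd hc hl).ne ((c.left_inv hc.2).symm ▸ h2) ?_
    (hasFDerivAt_fst.comp _ hasFDerivAt_fst)
    ((ContinuousLinearMap.inr ℂ ℂ (Cm 2)).prodMap (.id ℂ ℂ)) (fun _ => rfl) ?_
    (b := ((1, 0), 0)) rfl (by simp)
  · filter_upwards [(P277Z.Slc.tendsto_symm hc).eventually ((isOpen_O p l).mem_nhds hl)] with a k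
    rw [l_crd k, (rep_crd k).cx.2.2, sub_self, sub_self]
    rfl
  · have a1 := l_crd hl
    have a2 := hq.π_iff.1 h
    have a3 := hq.cx.2.2
    rw [c.left_inv hc.2]
    generalize crd p l y = q at a1 a2 a3
    obtain ⟨⟨t, v⟩, c⟩ := q
    obtain rfl : t = 0 := a2
    by_cases e : c = 0
    · obtain ⟨u, b1, b2⟩ := ex_dir a1 (a3.symm.trans (by simp [e]))
      exact surj_two (a := (v, 0)) (b := (u, 0)) (by simpa using a1) (by simpa using b1)
        (by simpa [Prod.map, e] using b2)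
    · exact surj_two (a := (v, 0)) (b := (0, 1)) (by simpa using a1) (by simp)
        (by simpa [Prod.map, Prod.mk_zero_zero] using e)

theorem leq_ex {T : Set (Cm 2)} (hT : T ⊆ D.S) (y : D.Xh) : ∃ ζ, LEq 2 (π ⁻¹' T) y ζ := by
  by_cases h : π y ∈ T
  · obtain ⟨a, ha⟩ := ex_O (p := ⟨π y, hT h⟩) (y := y) fun _ => rfl
    exact ⟨_, leq_t hT h rfl ha⟩
  · exact ⟨_, leq_one ((cont_π.continuousAt.eventually (D.disc _ (π_mem y))).mono
      fun y' k k' => h (k (hT k') ▸ k'))⟩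

end Dat

open Dat

variable {D : Dat} {G : Type} [Group G] (B : Act D G) (A : Arr D) {y : D.Xh} {x : Cm 2}

namespace Act

theorem mem_q {T : Set D.Xh} (hT : ∀ g, ∀ y ∈ T, B.sm g y ∈ T) : B.q y ∈ B.q '' T ↔ y ∈ T :=
  ⟨fun ⟨_, h, e⟩ => let ⟨g, k⟩ := B.q_eq_iff.1 e; k ▸ hT g _ h, fun h => ⟨y, h, rfl⟩⟩

/-- local equations descend to the quotient -/
theorem leq_q {T : Set D.Xh} (hT : ∀ g, ∀ y ∈ T, B.sm g y ∈ T) {ζ : D.Xh → ℂ} (h : LEq 2 T y ζ) :
    ∃ ζ', LEq 2 (B.q '' T) (B.q y) ζ' ∧ ∀ᶠ y' in 𝓝 y, ζ' (B.q y') = ζ y' := by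
  obtain ⟨f, h1, h2⟩ := B.q_cov.isLocalHomeomorph y
  have h3 : ∀ᶠ y' in 𝓝 y, ζ (f.symm (B.q y')) = ζ y' :=
    (f.eventually_left_inverse h1).mono fun y' k => by rw [h2, k]
  refine ⟨fun x => ζ (f.symm x), ⟨?_, fun e he => ?_⟩, h3⟩
  · rw [← B.q_cov.isLocalHomeomorph.map_nhds_eq, eventually_map]
    filter_upwards [h3, h.1] with y' k k'
    rw [k, k', B.mem_q hT]
  · obtain ⟨c, k1, k2, k3⟩ := B.ex_chart he
    have k4 : ∀ᶠ z in 𝓝 (c y), ζ (c.symm z) = ζ (f.symm (e.symm z)) := by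
      filter_upwards [k3, (P277Z.Slc.tendsto_symm k1).eventually h3] with z a b
      rw [a, b]
    rw [← k2]
    exact ⟨(h.2 c k1).1.congr k4, fun k => (EventuallyEq.fderiv_eq k4).symm.trans_ne
      ((h.2 c k1).2 (h3.self_of_nhds.symm.trans k))⟩

theorem ex_leq {T : Set D.Xh} (hT : ∀ g, ∀ y ∈ T, B.sm g y ∈ T) (h : ∀ y, ∃ ζ, LEq 2 T y ζ)
    (x : B.X.X) : ∃ ζ, LEq 2 (B.q '' T) x ζ := by
  obtain ⟨y, rfl⟩ := B.q_surj x
  obtain ⟨ζ, hζ⟩ := h y
  exact (B.leq_q hT hζ).imp fun _ => And.left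

/-- the image of an exceptional curve is a smooth divisor -/
theorem dive {p : Cm 2} (hp : p ∈ D.S) (x : B.X.X) : ∃ ζ, LEq 2 (B.q '' D.Ex p) x ζ := by
  have e : B.q '' D.Ex p = B.q '' (π ⁻¹' range fun g => B.a g p) := by
    refine Subset.antisymm (image_mono fun y h => ⟨1, (B.one _ (D.sub hp)).trans (Eq.symm h)⟩) ?_
    rintro _ ⟨y, ⟨g, h⟩, rfl⟩
    exact ⟨B.sm g⁻¹ y, (congrArg (B.a g⁻¹) h.symm).trans (B.inv_a g (D.sub hp)), B.q_sm _ _⟩
  rw [e]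
  refine B.ex_leq ?_ (leq_ex (range_subset_iff.2 fun g => B.mapsS g p hp)) x
  rintro g y ⟨g', h⟩
  exact ⟨g * g', (B.mul _ _ _ (D.sub hp)).trans (congrArg _ h)⟩

end Act

theorem ev_cont (a : Af) : Continuous (ev a) := continuous_const.add a.2.continuous

theorem nq_cont : Continuous nq := by
  unfold nq
  fun_prop

theorem ex_Bl (h : x ∈ D.Om) : ∃ r < A.ε, Bl r ∈ 𝓝 x := by
  rw [A.om] at h
  obtain ⟨r, h1, h2⟩ := exists_between (show nq x < A.ε from h)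
  exact ⟨r, h2, (nq_cont.continuousAt.eventually_lt continuousAt_const h1).mono fun _ => le_of_lt⟩

/-- the lines which come near `x` pass through `x` -/
theorem near_lines (h : x ∈ D.Om) :
    ∀ᶠ z in 𝓝 x, ∀ L, ev (A.fm L) z = 0 → ev (A.fm L) x = 0 := by
  obtain ⟨r, h1, h2⟩ := ex_Bl A h
  have k : ∀ᶠ z in 𝓝 x, ∀ L ∈ {L | ∃ z ∈ Bl r, ev (A.fm L) z = 0},
      ev (A.fm L) z = 0 → ev (A.fm L) x = 0 :=
    (eventually_all_finite (A.fin r h1)).2 fun L _ => by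
      by_cases e : ev (A.fm L) x = 0
      · exact .of_forall fun _ _ => e
      · exact ((ev_cont _).continuousAt.eventually_ne e).mono fun _ k k' => absurd k' k
  filter_upwards [k, h2] with z a b L c using a L ⟨z, b, c⟩ c

variable {A} {α β : A.κ}

theorem h_ne (h : x ∈ D.Om) (h0 : ev (A.fm (.inr α)) x = 0) : D.h x ≠ 0 := by
  obtain ⟨r, h1, h2⟩ := ex_Bl A h
  obtain ⟨T, U, -, k, -⟩ := A.fac r h1
  obtain ⟨k1, k2⟩ := k x (mem_of_mem_nhds h2)
  rw [k2]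
  exact mul_ne_zero k1 (Finset.prod_ne_zero_iff.2 fun i _ => A.dis α _ (by simp) x h h0)

theorem w_ne (h0 : ev (A.fm (.inr α)) (π y) = 0) : w y ≠ 0 := fun e =>
  h_ne (π_mem y) h0 (by rw [← w_sq, e]; simp)

theorem line_eq (h : x ∈ D.Om) (h0 : ev (A.fm (.inr α)) x = 0) (h1 : ev (A.fm (.inr β)) x = 0) :
    β = α := by
  by_contra k
  exact A.dis α _ (by simpa using k) x h h0 h1

theorem sheet_ne (h0 : ev (A.fm (.inr α)) (π y) = 0) {c : ℂ} (h : w y ≠ c * A.sd α (π y)) :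
    ∀ᶠ y' in 𝓝 y, ev (A.fm (.inr α)) (π y') = 0 → w y' ≠ c * A.sd α (π y') := by
  have k : ContinuousWithinAt (fun y' : D.Xh => w y' - c * A.sd α (π y'))
      {y' | ev (A.fm (.inr α)) (π y') = 0} y :=
    cont_w.continuousWithinAt.sub (continuousWithinAt_const.mul ((A.sd_cont α _ ⟨π_mem y, h0⟩).comp
      cont_π.continuousWithinAt fun y' k => ⟨π_mem y', k⟩))
  exact (eventually_nhdsWithin_iff.1 (k.eventually_ne (sub_ne_zero.2 h))).mono
    fun _ a b => sub_ne_zero.1 (a b)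

theorem near_O (h : y ∈ A.D1 α) : ∀ᶠ y' in 𝓝 y, y' ∈ A.O α := by
  have k := sheet_ne h.1 (c := -1) fun e => w_ne h.1 (by linear_combination (e + h.2) / 2)
  filter_upwards [k, cont_π.continuousAt.eventually (near_lines A (π_mem y))] with y' a b β c
  obtain rfl := line_eq (π_mem y) h.1 (b _ c)
  exact ⟨rfl, (sq_eq_sq_iff_eq_or_eq_neg.1 ((w_sq y').trans (A.sd_sq _ _ (π_mem y') c).symm)).resolve_right
    fun e => a c (by rw [e, neg_one_mul])⟩

theorem near_off (h : y ∉ ⋃ α, A.D1 α) : ∀ᶠ y' in 𝓝 y, y' ∉ ⋃ α, A.D1 α := by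
  have k := cont_π.continuousAt.eventually (near_lines A (π_mem y))
  simp only [mem_iUnion, not_exists] at h ⊢
  by_cases e : ∃ α, ev (A.fm (.inr α)) (π y) = 0
  · obtain ⟨α, e⟩ := e
    filter_upwards [k, sheet_ne e (c := 1) fun a => h α ⟨e, by rw [a, one_mul]⟩] with y' a b β c
    obtain rfl := line_eq (π_mem y) e (a _ c.1)
    exact b c.1 (by rw [one_mul, c.2])
  · exact k.mono fun y' a β c => e ⟨β, a _ c.1⟩

/-- the equation of the line is an equation of the sheet -/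
theorem leq_d1 (h : y ∈ A.D1 α) : LEq 2 (⋃ α, A.D1 α) y fun y => ev (A.fm (.inr α)) (π y) := by
  refine ⟨(near_O h).mono fun y' k => ⟨fun e => mem_iUnion.2 ⟨α, e, (k α e).2⟩, fun e => ?_⟩,
    fun c hc => ⟨analyticAt_const.add ((ContinuousLinearMap.analyticAt _ _).comp (an_π hc)),
      fun _ => ?_⟩⟩
  · obtain ⟨β, e⟩ := mem_iUnion.1 e
    exact (k β e.1).1 ▸ e.1
  · have h1 := (D.an _ (π_mem y)).differentiableAt.hasFDerivAt
    have h2 : HasFDerivAt (fun e : Cm 2 × ℂ => e.2 ^ 2 - D.h e.1) _ (F0 y) :=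
      (hasFDerivAt_snd.pow 2).sub (h1.comp (F0 y) hasFDerivAt_fst)
    obtain ⟨v, hv⟩ := surj_one (DFunLike.ne_iff.1 (A.ne (.inr α))).choose_spec 1
    have h3 : ∀ z, HasFDerivAt (fun e : Cm 2 × ℂ => ev (A.fm (.inr α)) e.1) _ z := fun z =>
      ((A.fm (.inr α)).2.hasFDerivAt.comp z hasFDerivAt_fst).const_add _
    have h4 := fun H' k => (im_F0 hc fun k => w_ne h.1 (w_ex k)).ne (H' := H') k
      (H := fun e => e.2 ^ 2 - D.h e.1) (.of_forall fun a => sub_eq_zero.2 (w_sq _)) (h3 _)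
      (ContinuousLinearMap.inr ℂ (Cm 2) ℂ) (by simp) (b := (v, 0))
    exact h4 _ (by rw [c.left_inv hc.2]; exact h2)
      (surj_one (b := 1) (by simpa [F0] using w_ne h.1)) hv (by simp)

theorem leq_D1 (y : D.Xh) : ∃ ζ, LEq 2 (⋃ α, A.D1 α) y ζ := by
  by_cases h : y ∈ ⋃ α, A.D1 α
  · obtain ⟨α, h⟩ := mem_iUnion.1 h
    exact ⟨_, leq_d1 h⟩
  · exact ⟨_, leq_one (near_off h)⟩

end Vale.Agent.P300LX
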