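import Vale.Agent.P300LX.Top
import Vale.Agent.P300LX.Im
import Mathlib.Analysis.Calculus.Deriv.Prod

/-!
# P300LX: the complex structure of the resolved double cover
-/

open Set Filter Topology Function
open scoped Manifold ContDiff
open Vale.Agent.P272.K (Cm Chart At)

set_option linter.unusedSectionVars false

noncomputable section

namespace Vale.Agent.P300LX

variable {A : Type} [NormedAddCommGroup A] [NormedSpace ℂ A] {z : A}

theorem scl_an {k : ℕ} {c : A → ℂ} {q : A → E3} (hc : AnalyticAt ℂ c z) (hq : AnalyticAt ℂ q z)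
    (h : c z ≠ 0) : AnalyticAt ℂ (fun a => scl k (c a) (q a)) z :=
  have h1 := analyticAt_fst.comp hq
  (((analyticAt_fst.comp h1).div hc h).prod (hc.smul (analyticAt_snd.comp h1))).prod
    ((hc.pow k).mul (analyticAt_snd.comp hq))

/-- blowing down -/
def T0 (p : Cm 2) (k : ℕ) (q : E3) : Cm 2 × ℂ := (bd p q.1, q.1.1 ^ k * q.2)

/-- normalisation -/
def T2 (k : ℕ) (l : Lf) (q : E3) : E3 := scl k (l q.1.2)⁻¹ q

/-- blowing up -/
def T1 (p : Cm 2) (k : ℕ) (l : Lf) (x : Cm 2 × ℂ) : E3 := T2 k l ((1, x.1 - p), x.2)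

theorem T0_an (p : Cm 2) (k : ℕ) (q : E3) : AnalyticAt ℂ (T0 p k) q :=
  ((bd_an p _).comp analyticAt_fst).prod
    (((analyticAt_fst.comp analyticAt_fst).pow k).mul analyticAt_snd)

theorem T2_an {k : ℕ} {l : Lf} {q : E3} (h : l q.1.2 ≠ 0) : AnalyticAt ℂ (T2 k l) q :=
  scl_an (((l.analyticAt _).comp (analyticAt_snd.comp analyticAt_fst)).inv h) analyticAt_id
    (inv_ne_zero h)

theorem T1_an {p : Cm 2} {k : ℕ} {l : Lf} {x : Cm 2 × ℂ} (h : l (x.1 - p) ≠ 0) :
    AnalyticAt ℂ (T1 p k l) x :=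
  AnalyticAt.comp (g := T2 k l) (f := fun x : Cm 2 × ℂ => ((1, x.1 - p), x.2)) (T2_an h)
    ((analyticAt_const.prod (analyticAt_fst.sub analyticAt_const)).prod analyticAt_snd)

theorem surj_two {E : Type} [NormedAddCommGroup E] [NormedSpace ℂ E] {T : E →L[ℂ] ℂ × ℂ}
    {a b : E} (ha : (T a).1 = 1) (hb : (T b).1 = 0) (hb' : (T b).2 ≠ 0) : Surjective T :=
  fun v => ⟨v.1 • a + ((v.2 - v.1 * (T a).2) / (T b).2) • b, by
    rw [map_add, map_smul, map_smul]
    exact Prod.ext (by simp [ha, hb]) (by simp [hb'])⟩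

theorem surj_one {E : Type} [NormedAddCommGroup E] [NormedSpace ℂ E] {T : E →L[ℂ] ℂ}
    {b : E} (hb : T b ≠ 0) : Surjective T := fun v => ⟨(v / T b) • b, by simp [hb]⟩

namespace Dat

variable {D : Dat} {p : D.S} {y : D.Xh} {l l' : Lf} {s : A → D.Xh}

/-- the coordinates off `S` -/
def F0 (y : D.Xh) : Cm 2 × ℂ := (π y, w y)

theorem F0_eq (h : y ∈ O p l) : F0 y = T0 p (D.k p) (crd p l y) :=
  Prod.ext (rep_crd h).π (rep_crd h).w'

theorem l_ne (h : y ∈ O p l) (h' : π y ≠ p) : l (π y - p) ≠ 0 := ((rep_ne h').mem_O.1 h).2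

theorem crd_T1 (h : y ∈ O p l) (h' : π y ≠ p) : crd p l y = T1 p (D.k p) l (F0 y) :=
  (rep_ne h').crd_eq (l_ne h h')

theorem l_ne' (h : y ∈ O p l) (h' : y ∈ O p l') : l' (crd p l y).1.2 ≠ 0 :=
  ((rep_crd h).mem_O.1 h').2

theorem crd_T2 (h : y ∈ O p l) (h' : y ∈ O p l') : crd p l' y = T2 (D.k p) l' (crd p l y) :=
  (rep_crd h).crd_eq (l_ne' h h')

/-- the map `s` is holomorphic at `z` -/
structure Lan (s : A → D.Xh) (z : A) : Prop where
  cont : ContinuousAt s z
  off : AnalyticAt ℂ (fun a => F0 (s a)) z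
  nr : ∀ p l, s z ∈ O p l → AnalyticAt ℂ (fun a => crd p l (s a)) z

/-- the map `s` is a holomorphic immersion at `z` -/
structure Lim (s : A → D.Xh) (z : A) : Prop extends Lan s z where
  off' : π (s z) ∉ D.S → Im (fun a => F0 (s a)) z
  nr' : ∀ p l, s z ∈ O p l → Im (fun a => crd p l (s a)) z

theorem ev_F0 (hs : ContinuousAt s z) (h : s z ∈ O p l) :
    ∀ᶠ a in 𝓝 z, F0 (s a) = T0 p (D.k p) (crd p l (s a)) :=
  (hs.eventually ((isOpen_O p l).mem_nhds h)).mono fun _ => F0_eq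

theorem ev_T1 (hs : ContinuousAt s z) (h : s z ∈ O p l) (h' : π (s z) ≠ p) :
    ∀ᶠ a in 𝓝 z, crd p l (s a) = T1 p (D.k p) l (F0 (s a)) := by
  filter_upwards [hs.eventually ((isOpen_O p l).mem_nhds h),
    (cont_π.continuousAt.comp hs).eventually_ne h'] with a k k' using crd_T1 k k'

theorem ev_T2 (hs : ContinuousAt s z) (h : s z ∈ O p l) (h' : s z ∈ O p l') :
    ∀ᶠ a in 𝓝 z, crd p l' (s a) = T2 (D.k p) l' (crd p l (s a)) := by
  filter_upwards [hs.eventually ((isOpen_O p l).mem_nhds h),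
    hs.eventually ((isOpen_O p l').mem_nhds h')] with a k k' using crd_T2 k k'

theorem lan_off (h0 : π (s z) ∉ D.S) (h : AnalyticAt ℂ (fun a => F0 (s a)) z) : Lan s z :=
  have hs := contAt0 h0 h.continuousAt.fst h.continuousAt.snd
  ⟨hs, h, fun p _ k =>
    have k' : π (s z) ≠ p := fun e => h0 (e ▸ p.2)
    ((T1_an (l_ne k k')).comp (f := fun a => F0 (s a)) h).congr
      ((ev_T1 hs k k').mono fun _ => Eq.symm)⟩

theorem lan_on (hs : ContinuousAt s z) (h0 : s z ∈ O p l)
    (h : AnalyticAt ℂ (fun a => crd p l (s a)) z) : Lan s z := by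
  have h1 : AnalyticAt ℂ (fun a => F0 (s a)) z :=
    ((T0_an _ _ _).comp h).congr ((ev_F0 hs h0).mono fun _ => Eq.symm)
  by_cases k : π (s z) ∈ D.S
  · refine ⟨hs, h1, fun p' l' k' => ?_⟩
    obtain rfl : p' = p := Subtype.ext ((k'.1 k).symm.trans (h0.1 k))
    exact ((T2_an (l_ne' h0 k')).comp (f := fun a => crd p' l (s a)) h).congr
      ((ev_T2 hs h0 k').mono fun _ => Eq.symm)
  · exact lan_off k h1

/-- a map with analytic homogeneous coordinates is holomorphic -/
theorem lan_rep {g : A → E3} (h0 : π (s z) ∈ D.S → π (s z) = p) (hg : AnalyticAt ℂ g z)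
    (h : ∀ᶠ a in 𝓝 z, Rep p (s a) (g a)) : Lan s z := by
  obtain ⟨i, hi⟩ := ex_O h0
  have h1 := (h.self_of_nhds.mem_O.1 hi).2
  refine lan_on (tendsto_rep h.self_of_nhds h0 hg.continuousAt h) hi
    (((T2_an (k := D.k p) h1).comp hg).congr ?_)
  filter_upwards [h, ((ContinuousLinearMap.proj i : Lf).continuous.continuousAt.comp
    hg.continuousAt.fst.snd).eventually_ne h1] with a k k' using (k.crd_eq k').symm

theorem lim_off (h0 : π (s z) ∉ D.S) (h : Im (fun a => F0 (s a)) z) : Lim s z :=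
  have k := lan_off h0 h.1
  ⟨k, fun _ => h, fun p l k' => h.of_comp (k.nr p l k') (T0_an _ _ _) (ev_F0 k.cont k')⟩

theorem lim_on (hs : ContinuousAt s z) (h0 : s z ∈ O p l) (h : Im (fun a => crd p l (s a)) z) :
    Lim s z := by
  have k := lan_on hs h0 h.1
  by_cases e : π (s z) ∈ D.S
  · refine ⟨k, fun e' => absurd e e', fun p' l' k' => ?_⟩
    obtain rfl : p' = p := Subtype.ext ((k'.1 e).symm.trans (h0.1 e))
    exact h.of_comp (k.nr _ _ k') (T2_an (l_ne' k' h0)) (ev_T2 hs k' h0)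
  · have k' : π (s z) ≠ p := fun e' => e (e' ▸ p.2)
    exact lim_off e (h.of_comp k.off (T1_an (l_ne h0 k')) (ev_T1 hs h0 k'))

/-- the charts -/
def Good (c : Chart 2 D.Xh) : Prop := ∀ z ∈ c.target, Lim c.symm z

theorem chart_off (h : π y ∉ D.S) : ∃ c : Chart 2 D.Xh, y ∈ c.source ∧ Good c := by
  classical
  have h1 := (D.an _ (π_mem y)).differentiableAt.hasFDerivAt
  have h2 : HasFDerivAt (fun e : Cm 2 × ℂ => e.2 ^ 2 - D.h e.1) _ (F0 y) :=
    (hasFDerivAt_snd.pow 2).sub (h1.comp (F0 y) hasFDerivAt_fst)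
  obtain ⟨c, k1, k2⟩ := exists_chart (n := 2) isOpen_offX (f := F0) (cont_π.prodMk cont_w).continuousOn
    (Z := D.Dom0) (ι := fun e => if k : e ∈ D.Dom0 then pt0 ⟨e, k⟩ else y)
    (continuousOn_iff_continuous_domRestrict.2 (cont_pt0.congr fun e => by
      simp only [domRestrict_apply, dif_pos e.2]))
    (fun y hy => ⟨mem_dom0 hy, (dif_pos (mem_dom0 hy)).trans (pt0_eq hy)⟩)
    (fun e he => by rw [dif_pos he]; exact ⟨he.2.1, rfl⟩) h
    (h := fun e => e.2 ^ 2 - D.h e.1)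
    ((analyticAt_snd.pow 2).sub ((D.an _ (π_mem y)).comp (f := Prod.fst) (x := F0 y) analyticAt_fst))
    (by
      rw [h2.fderiv]
      by_cases e : w y = 0
      · obtain ⟨v, hv⟩ := DFunLike.ne_iff.1 (D.reg _ (π_mem y) h (by rw [← w_sq, e]; simp))
        exact surj_one (b := (v, 0)) (by simpa using hv)
      · exact surj_one (b := (0, 1)) (by simpa [F0] using e))
    (by simp)
    (by
      filter_upwards [continuousAt_fst.eventually (D.isOpen_off.mem_nhds ⟨π_mem y, h⟩)] with e he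
      exact ⟨fun k => sub_eq_zero.2 k.2.2, fun k => ⟨he.1, he.2, sub_eq_zero.1 k⟩⟩)
  exact ⟨c, k1, fun z hz => lim_off (k2 z hz).1 (k2 z hz).2⟩

theorem ex_dir {v : Cm 2} (hv : l v = 1) (h : D.hb p (0, v) = 0) :
    ∃ u, l u = 0 ∧ fderiv ℂ (D.hb p) (0, v) (0, u) ≠ 0 := by
  have h0 : v ≠ 0 := fun e => by simp [e] at hv
  have h1 : bd p (0, v) ∈ D.Om := (bd_zero p v).symm ▸ D.sub p.2
  have h2 := (D.hb_an p p.2 (0, v) h0 h1).differentiableAt.hasFDerivAt
  obtain ⟨u, hu⟩ := DFunLike.ne_iff.1 (D.hb_reg p p.2 v h0 h)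
  rw [show fderiv ℂ (fun u => D.hb p (0, u)) v = _ from
    (h2.comp v (hasFDerivAt_prodMk_right 0 v)).fderiv] at hu
  have h3 : fderiv ℂ (D.hb p) (0, v) (0, v) = 0 := by
    have a1 : HasDerivAt (fun c : ℂ => ((0 : ℂ), c • v)) (0, v) 1 := by
      simpa using HasDerivAt.prodMk (hasDerivAt_const (1 : ℂ) (0 : ℂ))
        ((hasDerivAt_id (1 : ℂ)).smul_const v)
    refine (HasFDerivAt.comp_hasDerivAt (l := D.hb p) 1 (by simpa using h2) a1).unique
      ((hasDerivAt_const (1 : ℂ) (0 : ℂ)).congr_of_eventuallyEq ?_)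
    filter_upwards [isOpen_ne.mem_nhds (one_ne_zero (α := ℂ))] with c hc
    simpa [h] using hb_scl (u := (0, v)) hc h0 h1
  refine ⟨u - l u • v, by simp [hv], ?_⟩
  rw [show ((0 : ℂ), u - l u • v) = (0, u) - l u • (0, v) by simp, map_sub, map_smul, h3]
  simpa using hu

theorem chart_on (h : π y = p) (hl : y ∈ O p l) : ∃ c : Chart 2 D.Xh, y ∈ c.source ∧ Good c := by
  classical
  have hq := rep_crd hl
  have h0 := D.hb_an p p.2 _ hq.cx.1 hq.cx.2.1
  have h2 : HasFDerivAt (fun e : E3 => (l e.1.2 - 1, e.2 ^ 2 - D.hb p e.1)) _ (crd p l y) :=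
    ((l.hasFDerivAt.comp _ (hasFDerivAt_snd.comp _ hasFDerivAt_fst)).sub_const 1).prodMk
      ((hasFDerivAt_snd.pow 2).sub (h0.differentiableAt.hasFDerivAt.comp (crd p l y) hasFDerivAt_fst))
  obtain ⟨c, k1, k2⟩ := exists_chart (n := 2) (isOpen_O p l) (f := crd p l)
    (fun _ k => (contAt_crd k).continuousWithinAt) (Z := {q | q ∈ D.Dom p ∧ l q.1.2 = 1})
    (ι := fun e => if k : e ∈ D.Dom p then pt p ⟨e, k⟩ else y)
    (ContinuousOn.mono (continuousOn_iff_continuous_domRestrict.2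
      (cont_pt.congr fun e => by simp only [domRestrict_apply, dif_pos e.2])) fun _ k => k.1)
    (fun y hy => ⟨⟨crd_mem hy, l_crd hy⟩, (dif_pos (crd_mem hy)).trans (pt_crd hy)⟩)
    (fun e he => by
      rw [dif_pos he.1]
      exact ⟨pt_mem_O.2 (he.2.trans_ne one_ne_zero), crd_pt he.2⟩) hl
    (h := fun e => (l e.1.2 - 1, e.2 ^ 2 - D.hb p e.1))
    ((((l.analyticAt _).comp (analyticAt_snd.comp analyticAt_fst)).sub analyticAt_const).prod
      ((analyticAt_snd.pow 2).sub (h0.comp (f := Prod.fst) analyticAt_fst)))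
    (by
      rw [h2.fderiv]
      have a1 := l_crd hl
      have a2 := hq.π_iff.1 h
      have a3 := hq.cx.2.2
      generalize crd p l y = q at a1 a2 a3
      obtain ⟨⟨t, v⟩, c⟩ := q
      obtain rfl : t = 0 := a2
      by_cases e : c = 0
      · obtain ⟨u, b1, b2⟩ := ex_dir a1 (a3.symm.trans (by simp [e]))
        exact surj_two (a := ((0, v), 0)) (b := ((0, u), 0)) (by simpa using a1)
          (by simpa using b1) (by simpa using b2)
      · exact surj_two (a := ((0, v), 0)) (b := (0, 1)) (by simpa using a1) (by simp)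
          (by simpa using e))
    (by simp)
    (by
      filter_upwards [((bd_cont p).comp continuous_fst).continuousAt.eventually
        ((D.isOpen_near p).mem_nhds ⟨hq.cx.2.1, (crd_mem hl).2⟩)] with e he
      rw [Prod.mk_eq_zero, sub_eq_zero, sub_eq_zero]
      exact ⟨fun k => ⟨k.2, k.1.1.2.2⟩, fun k =>
        ⟨⟨⟨fun a => by simp [a] at k, he.1, k.2⟩, he.2⟩, k.1⟩⟩)
  exact ⟨c, k1, fun z hz => lim_on (c.continuousAt_symm hz) (k2 z hz).1 (k2 z hz).2⟩

theorem exists_good (y : D.Xh) : ∃ c : Chart 2 D.Xh, y ∈ c.source ∧ Good c :=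
  (cover y).elim chart_off fun ⟨_, _, h, hl⟩ => chart_on h hl

instance : ChartedSpace (Cm 2) D.Xh where
  atlas := {c | Good c}
  chartAt y := (exists_good y).choose
  mem_chart_source y := (exists_good y).choose_spec.1
  chart_mem_atlas y := (exists_good y).choose_spec.2

variable {c : Chart 2 D.Xh}

/-- the inverse of a chart is a holomorphic immersion -/
theorem at_lim (h : At c y) : Lim c.symm (c y) := h.1 _ (c.map_source h.2)

theorem an_F0 (h : At c y) : AnalyticAt ℂ (fun z => F0 (c.symm z)) (c y) := (at_lim h).off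

theorem an_π (h : At c y) : AnalyticAt ℂ (fun z => π (c.symm z)) (c y) :=
  AnalyticAt.comp (g := Prod.fst) (f := fun z => F0 (c.symm z)) analyticAt_fst (an_F0 h)

theorem an_w (h : At c y) : AnalyticAt ℂ (fun z => w (c.symm z)) (c y) :=
  AnalyticAt.comp (g := Prod.snd) (f := fun z => F0 (c.symm z)) analyticAt_snd (an_F0 h)

theorem im_F0 (h : At c y) (h0 : π y ∉ D.S) : Im (fun z => F0 (c.symm z)) (c y) :=
  (at_lim h).off' (by rwa [c.left_inv h.2])

theorem im_crd (h : At c y) (h0 : y ∈ O p l) : Im (fun z => crd p l (c.symm z)) (c y) :=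
  (at_lim h).nr' p l (by rwa [c.left_inv h.2])

/-- a holomorphic map in a chart -/
theorem Lan.chart (hs : Lan s z) (h : At c (s z)) : AnalyticAt ℂ (fun a => c (s a)) z := by
  have k := hs.cont.eventually (c.eventually_left_inverse h.2)
  have k' := (c.continuousAt h.2).comp hs.cont
  rcases cover (s z) with h0 | ⟨p, l, -, h0⟩
  · exact (im_F0 h h0).an (τ := fun a => c (s a))
      (hs.off.congr (k.mono fun a e => (congrArg F0 e).symm)) k'
  · exact (im_crd h h0).an (τ := fun a => c (s a))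
      ((hs.nr p l h0).congr (k.mono fun a e => (congrArg (crd p l) e).symm)) k'

/-- an immersion in a chart -/
theorem Lim.chart (hs : Lim s z) (h : At c (s z)) : Im (fun a => c (s a)) z := by
  have k := hs.cont.eventually (c.eventually_left_inverse h.2)
  rcases cover (s z) with h0 | ⟨p, l, -, h0⟩
  · exact (hs.off' h0).of_comp (hs.toLan.chart h) (an_F0 h) (k.mono fun a e => (congrArg F0 e).symm)
  · exact (hs.nr' p l h0).of_comp (hs.toLan.chart h) (im_crd h h0).1
      (k.mono fun a e => (congrArg (crd p l) e).symm)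

theorem lan_of_chart (hs : ContinuousAt s z) (h : At c (s z))
    (ha : AnalyticAt ℂ (fun a => c (s a)) z) : Lan s z :=
  have k := hs.eventually (c.eventually_left_inverse h.2)
  ⟨hs, ((an_F0 h).comp (f := fun a => c (s a)) ha).congr (k.mono fun _ e => congrArg F0 e),
    fun p l h0 => ((im_crd h h0).1.comp (f := fun a => c (s a)) ha).congr
      (k.mono fun _ e => congrArg (crd p l) e)⟩

instance : IsManifold 𝓘(ℂ, Cm 2) ω D.Xh := by
  refine isManifold_of_contDiffOn 𝓘(ℂ, Cm 2) ω _ fun c c' hc hc' z hz => ?_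
  have hz' : z ∈ (c.symm ≫ₕ c').source := by simpa using hz.1
  exact ((hc z hz'.1).toLan.chart ⟨hc', hz'.2⟩).contDiffAt.contDiffWithinAt

instance : LocallyCompactSpace D.Xh := ChartedSpace.locallyCompactSpace (Cm 2) _

end Dat

end Vale.Agent.P300LX
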